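import Mathlib.MeasureTheory.Measure.Haar.InnerProductSpace
import Mathlib.MeasureTheory.Measure.Haar.OfBasis
import Mathlib.Analysis.Convex.Measure
import Mathlib.Topology.MetricSpace.Isometry
import Mathlib.Analysis.Normed.Affine.MazurUlam
import Mathlib.MeasureTheory.Measure.Lebesgue.Complex

/-! # Developing straight segments over a net of convex planar faces; area of the developed set -/

namespace Vale.Agent.P134.PS.H399

open MeasureTheory Set

variable {F : Type*}

/-- A net of planar faces: `K f` the face in its chart `ℂ`, `E f f'` the (relatively open) common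
edge of `f` and `f'` in the chart of `f`, `τ f f'` the isometry from the chart of `f'` to the chart
of `f` which unfolds `f'` across the edge. -/
structure Net (F : Type*) where
  K : F → Set ℂ
  E : F → F → Set ℂ
  τ : F → F → (ℂ ≃ᵢ ℂ)
  convK : ∀ f, Convex ℝ (K f)
  convE : ∀ f f', Convex ℝ (E f f')
  disjKE : ∀ f f', Disjoint (interior (K f)) (E f f')
  disjE : ∀ f f' f'', f' ≠ f'' → Disjoint (E f f') (E f f'')

variable (N : Net F)

/-- point of parameter `r` on the line from `v` to `z` -/
noncomputable def ln (v z : ℂ) (r : ℝ) : ℂ := v + r • (z - v)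

/-- `Go v z f g s γ`: after the parameter `s` the segment from `v` to `z` runs in the developed
faces `f, γ₁, γ₂, …`, `g` being the developing isometry of the face `f`. -/
noncomputable def Go (v z : ℂ) : F → (ℂ ≃ᵢ ℂ) → ℝ → List F → Prop
  | f, g, s, [] => s < 1 ∧ ∀ r, s < r → r ≤ 1 → ln v z r ∈ g '' interior (N.K f)
  | f, g, s, f' :: γ => ∃ t, s < t ∧ t < 1 ∧
      (∀ r, s < r → r < t → ln v z r ∈ g '' interior (N.K f)) ∧
      ln v z t ∈ g '' (N.E f f') ∧ Go v z f' ((N.τ f f').trans g) t γ

/-- last face and its developing isometry -/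
noncomputable def fin : F → (ℂ ≃ᵢ ℂ) → List F → F × (ℂ ≃ᵢ ℂ)
  | f, g, [] => (f, g)
  | f, g, f' :: γ => fin f' ((N.τ f f').trans g) γ

lemma mem_image_disj (g : ℂ ≃ᵢ ℂ) {A B : Set ℂ} (h : Disjoint A B) {z : ℂ} (h1 : z ∈ g '' A)
    (h2 : z ∈ g '' B) : False := by
  obtain ⟨a, ha, rfl⟩ := h1
  obtain ⟨b, hb, hab⟩ := h2
  have := g.injective hab
  subst this
  exact Set.disjoint_left.1 h ha hb

/-- the sequence of faces is determined by the end point. -/
theorem Go.unique {v z : ℂ} : ∀ (γ γ' : List F) {f : F} {g : ℂ ≃ᵢ ℂ} {s : ℝ},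
    Go N v z f g s γ → Go N v z f g s γ' → γ = γ'
  | [], [], _, _, _, _, _ => rfl
  | [], f' :: γ', f, g, s, h, h' => by
    exfalso
    obtain ⟨t, hst, ht1, _, hE, _⟩ := h'
    exact mem_image_disj g (N.disjKE f f') (h.2 t hst ht1.le) hE
  | f' :: γ', [], f, g, s, h', h => by
    exfalso
    obtain ⟨t, hst, ht1, _, hE, _⟩ := h'
    exact mem_image_disj g (N.disjKE f f') (h.2 t hst ht1.le) hE
  | f₁ :: γ, f₂ :: γ', f, g, s, h, h' => by
    obtain ⟨t, hst, ht1, hI, hE, hG⟩ := h
    obtain ⟨t', hst', ht1', hI', hE', hG'⟩ := h'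
    have htt : t = t' := by
      rcases lt_trichotomy t t' with h | h | h
      · exact (mem_image_disj g (N.disjKE f f₁) (hI' t hst h) hE).elim
      · exact h
      · exact (mem_image_disj g (N.disjKE f f₂) (hI t' hst' h) hE').elim
    subst htt
    have hff : f₁ = f₂ := by
      by_contra hne
      exact mem_image_disj g (N.disjE f f₁ f₂ hne) hE hE'
    subst hff
    rw [Go.unique γ γ' hG hG']

/-- The end point lies in the last developed face. -/
theorem Go.mem_last {v z : ℂ} : ∀ (γ : List F) {f : F} {g : ℂ ≃ᵢ ℂ} {s : ℝ},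
    Go N v z f g s γ → z ∈ (fin N f g γ).2 '' interior (N.K (fin N f g γ).1)
  | [], f, g, s, h => by
    have := h.2 1 h.1 le_rfl
    simpa [ln, fin] using this
  | f' :: γ, f, g, s, h => by
    obtain ⟨t, _, _, _, _, hG⟩ := h
    exact Go.mem_last γ hG

/-- weighted harmonic mean relation between parameters -/
def HM (a b s s' s'' : ℝ) : Prop :=
  (s = 0 ∧ s' = 0 ∧ s'' = 0) ∨ (0 < s ∧ 0 < s' ∧ 0 < s'' ∧ 1 / s'' = a / s + b / s')

lemma HM.ln {a b : ℝ} (ha : 0 ≤ a) (hb : 0 ≤ b) (hab : a + b = 1) {s s' s'' : ℝ}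
    (h : HM a b s s' s'') {v z z' : ℂ} {A : Set ℂ} (hA : Convex ℝ A)
    (h1 : ln v z s ∈ A) (h2 : ln v z' s' ∈ A) : ln v (a • z + b • z') s'' ∈ A := by
  rcases h with ⟨rfl, rfl, rfl⟩ | ⟨hs, hs', hs'', hh⟩
  · simpa [H399.ln] using h1
  · have hA1 : 0 ≤ a * s'' / s := by positivity
    have hB1 : 0 ≤ b * s'' / s' := by positivity
    have hAB : a * s'' / s + b * s'' / s' = 1 := by
      have : a * s'' / s + b * s'' / s' = s'' * (a / s + b / s') := by ring
      rw [this, ← hh]; field_simp
    have := hA h1 h2 hA1 hB1 hAB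
    convert this using 1
    have hv : v = (a * s'' / s + b * s'' / s') • v := by rw [hAB, one_smul]
    have e1 : (a * s'' / s) * s = a * s'' := by field_simp
    have e2 : (b * s'' / s') * s' = b * s'' := by field_simp
    have hz : (a • z + b • z') - v = a • (z - v) + b • (z' - v) := by
      have : v = (a + b) • v := by rw [hab, one_smul]
      nth_rewrite 1 [this]
      simp only [smul_sub, add_smul]; abel
    simp only [H399.ln, smul_add, smul_smul, e1, e2]
    nth_rewrite 1 [hv]
    rw [hz]
    simp only [smul_add, smul_smul, add_smul]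
    rw [mul_comm s'' a, mul_comm s'' b]
    abel

/-- harmonic mean exists -/
lemma HM.exists {a b : ℝ} (ha : 0 ≤ a) (hb : 0 ≤ b) (hab : a + b = 1) {s s' s'' t t' : ℝ}
    (h : HM a b s s' s'') (h1 : s < t) (h2 : s' < t') :
    ∃ t'', HM a b t t' t'' ∧ s'' < t'' ∧ ∀ r, s'' < r → r < t'' → ∃ r₁ r₂, s < r₁ ∧ r₁ < t ∧
      s' < r₂ ∧ r₂ < t' ∧ HM a b r₁ r₂ r := by
  have ht : 0 < t := by
    rcases h with ⟨rfl, rfl, rfl⟩ | ⟨hs, hs', hs'', hh⟩
    · exact h1
    · exact hs.trans h1
  have ht' : 0 < t' := by
    rcases h with ⟨rfl, rfl, rfl⟩ | ⟨hs, hs', hs'', hh⟩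
    · exact h2
    · exact hs'.trans h2
  have hpos : 0 < a / t + b / t' := by
    rcases ha.eq_or_lt with rfl | ha'
    · have : b = 1 := by linarith
      subst this; simp; positivity
    · have : 0 < a / t := by positivity
      have : 0 ≤ b / t' := by positivity
      linarith
  refine ⟨1 / (a / t + b / t'), Or.inr ⟨ht, ht', by positivity, by simp⟩, ?_, ?_⟩
  · rcases h with ⟨rfl, rfl, rfl⟩ | ⟨hs, hs', hs'', hh⟩
    · positivity
    · rw [lt_div_iff₀ hpos]
      have k1 : a / t ≤ a / s := by gcongr
      have k2 : b / t' ≤ b / s' := by gcongr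
      have k3 : a / t + b / t' < 1 / s'' := by
        rw [hh]
        rcases ha.eq_or_lt with rfl | ha'
        · have : b = 1 := by linarith
          subst this
          simp only [zero_div, zero_add]
          gcongr
        · have : a / t < a / s := by gcongr
          linarith
      calc s'' * (a / t + b / t') < s'' * (1 / s'') := by gcongr
        _ = 1 := by field_simp
  · intro r hr1 hr2
    rcases h with ⟨rfl, rfl, rfl⟩ | ⟨hs, hs', hs'', hh⟩
    · -- s = s' = s'' = 0
      set m : ℝ := r * (a / t + b / t') with hm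
      have hm0 : 0 < m := by positivity
      have hm1 : m < 1 := by
        rw [lt_div_iff₀ hpos] at hr2; exact hr2
      refine ⟨m * t, m * t', by positivity, ?_, by positivity, ?_, Or.inr ⟨by positivity,
        by positivity, hr1, ?_⟩⟩
      · nlinarith
      · nlinarith
      · have : a / (m * t) + b / (m * t') = (1 / m) * (a / t + b / t') := by
          field_simp
        rw [this, hm]
        have h3 : a / t + b / t' ≠ 0 := hpos.ne'
        rw [one_div, one_div, mul_inv, mul_assoc, inv_mul_cancel₀ h3, mul_one]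
    · set A := a / t + b / t' with hA
      set B := a / s + b / s' with hB
      have hr0 : 0 < r := hs''.trans hr1
      have hBA : A < B := by
        have k1 : a / t ≤ a / s := by gcongr
        have k2 : b / t' ≤ b / s' := by gcongr
        rcases ha.eq_or_lt with rfl | ha'
        · have : b = 1 := by linarith
          subst this
          have : (1:ℝ) / t' < 1 / s' := by gcongr
          simpa [hA, hB] using this
        · have : a / t < a / s := by gcongr
          simp only [hA, hB]; linarith
      have hrB : 1 / r < B := by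
        rw [← hh]; gcongr
      have hrA : A < 1 / r := by
        rw [lt_div_iff₀ hr0]
        rw [lt_div_iff₀ hpos] at hr2
        linarith
      -- lam : weight of (1/s, 1/s')
      set lam := (1 / r - A) / (B - A) with hlam
      have hd : 0 < B - A := by linarith
      have hl0 : 0 < lam := by apply div_pos <;> linarith
      have hl1 : lam < 1 := by rw [hlam, div_lt_one hd]; linarith
      set x := (1 - lam) / t + lam / s with hx
      set y := (1 - lam) / t' + lam / s' with hy
      have h1l : 0 < 1 - lam := by linarith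
      have hx0 : 0 < x := by positivity
      have hy0 : 0 < y := by positivity
      have hts : 1 / t < 1 / s := by gcongr
      have hts' : 1 / t' < 1 / s' := by gcongr
      refine ⟨1 / x, 1 / y, ?_, ?_, ?_, ?_, Or.inr ⟨by positivity, by positivity, hr0, ?_⟩⟩
      · rw [lt_div_iff₀ hx0]
        have : x < 1 / s := by
          have e : x = (1 - lam) * (1 / t) + lam * (1 / s) := by rw [hx]; ring
          rw [e]; nlinarith
        calc s * x < s * (1 / s) := by gcongr
          _ = 1 := by field_simp
      · rw [div_lt_iff₀ hx0]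
        have : 1 / t < x := by
          have e : x = (1 - lam) * (1 / t) + lam * (1 / s) := by rw [hx]; ring
          rw [e]; nlinarith
        calc 1 = t * (1 / t) := by field_simp
          _ < t * x := by gcongr
      · rw [lt_div_iff₀ hy0]
        have : y < 1 / s' := by
          have e : y = (1 - lam) * (1 / t') + lam * (1 / s') := by rw [hy]; ring
          rw [e]; nlinarith
        calc s' * y < s' * (1 / s') := by gcongr
          _ = 1 := by field_simp
      · rw [div_lt_iff₀ hy0]
        have : 1 / t' < y := by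
          have e : y = (1 - lam) * (1 / t') + lam * (1 / s') := by rw [hy]; ring
          rw [e]; nlinarith
        calc 1 = t' * (1 / t') := by field_simp
          _ < t' * y := by gcongr
      · have e : a / (1 / x) + b / (1 / y) = (1 - lam) * A + lam * B := by
          simp only [hx, hy, hA, hB]
          field_simp
          ring
        rw [e]
        have : lam * (B - A) = 1 / r - A := by rw [hlam]; field_simp
        linarith

lemma HM.one {a b : ℝ} (hab : a + b = 1) : HM a b 1 1 1 :=
  Or.inr ⟨one_pos, one_pos, one_pos, by simp [hab]⟩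

lemma HM.unique {a b s s' t t' : ℝ} (hs : 0 < s) (h : HM a b s s' t) (h' : HM a b s s' t') :
    t = t' := by
  rcases h with ⟨rfl, _, _⟩ | ⟨_, _, ht, h⟩
  · exact absurd hs (lt_irrefl _)
  rcases h' with ⟨rfl, _, _⟩ | ⟨_, _, ht', h'⟩
  · exact absurd hs (lt_irrefl _)
  have : 1 / t = 1 / t' := by rw [h, h']
  have := congrArg (fun x => 1 / x) this
  simpa using this

lemma convex_image (g : ℂ ≃ᵢ ℂ) {A : Set ℂ} (hA : Convex ℝ A) : Convex ℝ (g '' A) := by
  have h := hA.affine_image g.toRealAffineIsometryEquiv.toAffineEquiv.toAffineMap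
  simpa using h

/-- The set of end points with a given sequence of faces is convex. -/
theorem Go.convex_aux {v z z' : ℂ} {a b : ℝ} (ha : 0 ≤ a) (hb : 0 ≤ b) (hab : a + b = 1) :
    ∀ (γ : List F) {f : F} {g : ℂ ≃ᵢ ℂ} {s s' s'' : ℝ}, HM a b s s' s'' →
    Go N v z f g s γ → Go N v z' f g s' γ → Go N v (a • z + b • z') f g s'' γ
  | [], f, g, s, s', s'', h, h1, h2 => by
    obtain ⟨t'', ht'', hlt, hall⟩ := h.exists ha hb hab h1.1 h2.1
    have h1'' : t'' = 1 := HM.unique one_pos ht'' (HM.one hab)
    subst h1''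
    have hc : Convex ℝ (g '' interior (N.K f)) := convex_image g (N.convK f).interior
    refine ⟨hlt, fun r hr hr1 => ?_⟩
    rcases hr1.lt_or_eq with hlt1 | rfl
    · obtain ⟨r₁, r₂, q1, q2, q3, q4, q5⟩ := hall r hr hlt1
      exact q5.ln ha hb hab hc (h1.2 _ q1 q2.le) (h2.2 _ q3 q4.le)
    · exact (HM.one hab).ln ha hb hab hc (h1.2 _ h1.1 le_rfl) (h2.2 _ h2.1 le_rfl)
  | f' :: γ, f, g, s, s', s'', h, h1, h2 => by
    obtain ⟨t, hst, ht1, hI, hE, hG⟩ := h1
    obtain ⟨t', hst', ht1', hI', hE', hG'⟩ := h2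
    obtain ⟨t'', ht'', hlt, hall⟩ := h.exists ha hb hab hst hst'
    have ht0 : 0 < t := by
      rcases ht'' with ⟨rfl, rfl, rfl⟩ | ⟨h0, _⟩
      · rcases h with ⟨rfl, _, rfl⟩ | ⟨h0, _, h0', _⟩
        · exact hst
        · exact h0.trans hst
      · exact h0
    have ht''1 : t'' < 1 := by
      obtain ⟨u, hu, hu1, _⟩ := ht''.exists ha hb hab ht1 ht1'
      rwa [HM.unique one_pos hu (HM.one hab)] at hu1
    refine ⟨t'', hlt, ht''1, fun r hr hr1 => ?_, ?_, Go.convex_aux ha hb hab γ ht'' hG hG'⟩
    · obtain ⟨r₁, r₂, q1, q2, q3, q4, q5⟩ := hall r hr hr1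
      exact q5.ln ha hb hab (convex_image g (N.convK f).interior) (hI _ q1 q2) (hI' _ q3 q4)
    · exact ht''.ln ha hb hab (convex_image g (N.convE f f')) hE hE'

/-- Set of end points of segments issued from `v` in the face `f₀` with face sequence `γ`. -/
def Tset (f₀ : F) (v : ℂ) (γ : List F) : Set ℂ :=
  {z | Go N v z f₀ (IsometryEquiv.refl ℂ) 0 γ}

lemma convex_Tset (f₀ : F) (v : ℂ) (γ : List F) : Convex ℝ (Tset N f₀ v γ) := by
  intro z hz z' hz' a b ha hb hab
  exact Go.convex_aux N ha hb hab γ (Or.inl ⟨rfl, rfl, rfl⟩) hz hz'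

lemma disjoint_Tset (f₀ : F) (v : ℂ) {γ γ' : List F} (h : γ ≠ γ') :
    Disjoint (Tset N f₀ v γ) (Tset N f₀ v γ') :=
  Set.disjoint_left.2 fun _ h1 h2 => h (Go.unique N γ γ' h1 h2)

lemma volume_preimage_isometryEquiv (g : ℂ ≃ᵢ ℂ) (A : Set ℂ) :
    volume (g ⁻¹' A) = volume A := by
  have h1 : MeasurePreserving g volume volume := by
    have hl := (g.toRealLinearIsometryEquiv).measurePreserving
    have h2 : (g : ℂ → ℂ) = (fun w => w + g 0) ∘ g.toRealLinearIsometryEquiv := by
      ext w
      simp [IsometryEquiv.toRealLinearIsometryEquiv_apply]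
    rw [h2]
    exact (measurePreserving_add_right volume (g 0)).comp hl
  exact h1.measure_preimage_emb g.toHomeomorph.measurableEmbedding A

/-- The part of the face `f` covered by the developed straight segments issued from the corner
`v` of `f₀` whose (developed) end point lies in `S`. -/
def cov (f₀ : F) (v : ℂ) (S : Set ℂ) (f : F) : Set ℂ :=
  {x | ∃ γ : List F, (fin N f₀ (IsometryEquiv.refl ℂ) γ).1 = f ∧
    (fin N f₀ (IsometryEquiv.refl ℂ) γ).2 x ∈ S ∧
    Go N v ((fin N f₀ (IsometryEquiv.refl ℂ) γ).2 x) f₀ (IsometryEquiv.refl ℂ) 0 γ}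

/-- Covering is area non-increasing. -/
theorem tsum_volume_cov_le [Countable F] (f₀ : F) (v : ℂ) {S : Set ℂ} (hS : MeasurableSet S) :
    ∑' f, volume (cov N f₀ v S f) ≤ volume S := by
  classical
  set e : List F → F × (ℂ ≃ᵢ ℂ) := fun γ => fin N f₀ (IsometryEquiv.refl ℂ) γ with he
  have h1 : ∀ f, volume (cov N f₀ v S f) ≤
      ∑' γ : List F, (if (e γ).1 = f then volume (Tset N f₀ v γ ∩ S) else 0) := by
    intro f
    have hsub : cov N f₀ v S f ⊆ ⋃ γ : List F,
        (if (e γ).1 = f then (e γ).2 ⁻¹' (Tset N f₀ v γ ∩ S) else ∅) := by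
      rintro x ⟨γ, h1, h2, h3⟩
      refine mem_iUnion.2 ⟨γ, ?_⟩
      rw [if_pos h1]
      exact ⟨h3, h2⟩
    refine (measure_mono hsub).trans ((measure_iUnion_le _).trans ?_)
    refine ENNReal.tsum_le_tsum fun γ => ?_
    split_ifs with h
    · rw [volume_preimage_isometryEquiv]
    · simp
  calc ∑' f, volume (cov N f₀ v S f)
      ≤ ∑' f, ∑' γ : List F, (if (e γ).1 = f then volume (Tset N f₀ v γ ∩ S) else 0) :=
        ENNReal.tsum_le_tsum h1
    _ = ∑' γ : List F, ∑' f, (if (e γ).1 = f then volume (Tset N f₀ v γ ∩ S) else 0) :=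
        ENNReal.tsum_comm
    _ = ∑' γ : List F, volume (Tset N f₀ v γ ∩ S) := by
        refine tsum_congr fun γ => ?_
        rw [tsum_eq_single (e γ).1 (fun f hf => if_neg (Ne.symm hf)), if_pos rfl]
    _ = volume (⋃ γ : List F, Tset N f₀ v γ ∩ S) := by
        refine (measure_iUnion₀ ?_ ?_).symm
        · intro γ γ' h
          exact ((disjoint_Tset N f₀ v h).mono inter_subset_left inter_subset_left).aedisjoint
        · exact fun γ => ((convex_Tset N f₀ v γ).nullMeasurableSet _).inter hS.nullMeasurableSet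
    _ ≤ volume S := measure_mono (iUnion_subset fun γ => inter_subset_right)

end Vale.Agent.P134.PS.H399
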