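import Mathlib.Analysis.SpecialFunctions.PolarCoord
import Mathlib.Analysis.SpecialFunctions.Integrals.Basic

/-! # Area of a planar sector (upper bound, arbitrary measurable sets of directions and radii) -/

namespace Vale.Agent.P134.PS.H399

open MeasureTheory Set Real

/-- `dir θ = e^{iθ}`. -/
noncomputable def dir (θ : ℝ) : ℂ := Real.cos θ + Real.sin θ * Complex.I

lemma norm_dir (θ : ℝ) : ‖dir θ‖ = 1 := by
  unfold dir
  rw [Complex.ofReal_cos, Complex.ofReal_sin, Complex.norm_cos_add_sin_mul_I]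

/-- the generalised sector with apex `v`, set of radii `B` and set of directions `A` -/
def gsector (v : ℂ) (B A : Set ℝ) : Set ℂ :=
  {z | ∃ r ∈ B, ∃ θ ∈ A, z = v + r * dir θ}

/-- the (punctured, open) sector with apex `v`, radius `R` and set of directions `A` -/
def sector (v : ℂ) (R : ℝ) (A : Set ℝ) : Set ℂ :=
  {z | ∃ r ∈ Ioo (0 : ℝ) R, ∃ θ ∈ A, z = v + r * dir θ}

lemma gsector_eq_image (B : Set ℝ) (A : Set ℝ) :
    gsector 0 B A = (fun p : ℝ × ℝ => Complex.measurableEquivRealProd.symm p) ''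
      ((fun p : ℝ × ℝ => polarCoord.symm p) '' (B ×ˢ A)) := by
  ext z
  simp only [gsector, mem_ofPred_eq, mem_image, mem_prod, Prod.exists, zero_add]
  constructor
  · rintro ⟨r, hr, θ, hθ, rfl⟩
    refine ⟨r * Real.cos θ, r * Real.sin θ, ⟨r, θ, ⟨hr, hθ⟩, rfl⟩, ?_⟩
    simp [dir, Complex.ext_iff, Complex.measurableEquivRealProd, Complex.cos_ofReal_re,
      Complex.sin_ofReal_re]
  · rintro ⟨a, b, ⟨r, θ, ⟨hr, hθ⟩, hab⟩, rfl⟩
    refine ⟨r, hr, θ, hθ, ?_⟩
    have h1 : a = r * Real.cos θ := (congrArg Prod.fst hab).symm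
    have h2 : b = r * Real.sin θ := (congrArg Prod.snd hab).symm
    simp [dir, Complex.ext_iff, Complex.measurableEquivRealProd, h1, h2, Complex.cos_ofReal_re,
      Complex.sin_ofReal_re]

/-- Area of a generalised sector. -/
theorem volume_gsector_le (v : ℂ) {B A : Set ℝ} (hB : MeasurableSet B) (hA : MeasurableSet A)
    (hB0 : B ⊆ Ioi 0) :
    volume (gsector v B A) ≤ (∫⁻ r in B, ENNReal.ofReal r) * volume A := by
  have h0 : gsector v B A = (fun z => v + z) '' (gsector 0 B A) := by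
    ext z
    simp only [gsector, mem_ofPred_eq, mem_image, zero_add]
    constructor
    · rintro ⟨r, hr, θ, hθ, rfl⟩
      exact ⟨r * dir θ, ⟨r, hr, θ, hθ, rfl⟩, rfl⟩
    · rintro ⟨w, ⟨r, hr, θ, hθ, rfl⟩, rfl⟩
      exact ⟨r, hr, θ, hθ, rfl⟩
  rw [h0, image_add_left, measure_preimage_add]
  rw [gsector_eq_image]
  rw [show ((fun p : ℝ × ℝ => Complex.measurableEquivRealProd.symm p) ''
      ((fun p : ℝ × ℝ => polarCoord.symm p) '' (B ×ˢ A)))
      = Complex.measurableEquivRealProd ⁻¹'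
        ((fun p : ℝ × ℝ => polarCoord.symm p) '' (B ×ˢ A)) from
      MeasurableEquiv.image_symm _ _]
  rw [Complex.volume_preserving_equiv_real_prod.measure_preimage_equiv]
  have hm : MeasurableSet (B ×ˢ A) := hB.prod hA
  refine (addHaar_image_le_lintegral_abs_det_fderiv volume hm
    (fun p _ => (hasFDerivAt_polarCoord_symm p).hasFDerivWithinAt)).trans ?_
  simp_rw [det_fderivPolarCoordSymm]
  rw [Measure.volume_eq_prod, ← Measure.prod_restrict]
  rw [lintegral_prod _ (by fun_prop)]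
  simp only [lintegral_const, Measure.restrict_apply MeasurableSet.univ, univ_inter]
  rw [lintegral_mul_const _ (by fun_prop)]
  gcongr ?_ * _
  refine setLIntegral_mono' hB fun r hr => ?_
  rw [abs_of_pos (hB0 hr)]

/-- Area of a sector: at most `R ^ 2 / 2` times the measure of the set of directions. -/
theorem volume_sector_le (v : ℂ) {R : ℝ} (hR : 0 ≤ R) {A : Set ℝ} (hA : MeasurableSet A) :
    volume (sector v R A) ≤ ENNReal.ofReal (R ^ 2 / 2) * volume A := by
  refine (volume_gsector_le v measurableSet_Ioo hA Ioo_subset_Ioi_self).trans ?_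
  gcongr
  rw [← ofReal_integral_eq_lintegral_ofReal]
  · apply ENNReal.ofReal_le_ofReal
    rw [← integral_Ioc_eq_integral_Ioo, ← intervalIntegral.integral_of_le hR]
    simp
  · exact (continuous_id.integrableOn_Icc (a := 0) (b := R)).mono_set Ioo_subset_Icc_self
  · exact (ae_restrict_iff' measurableSet_Ioo).2
      (Filter.Eventually.of_forall fun x hx => (le_of_lt hx.1))

lemma dir_injOn (θ₀ : ℝ) : InjOn dir (Ico θ₀ (θ₀ + 2 * π)) := by
  intro x hx y hy hxy
  have h : Complex.exp (x * Complex.I) = Complex.exp (y * Complex.I) := by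
    rw [Complex.exp_mul_I, Complex.exp_mul_I]
    simpa [dir] using hxy
  obtain ⟨n, hn⟩ := Complex.exp_eq_exp_iff_exists_int.1 h
  have h2 : x = y + n * (2 * π) := by
    have h3 : (x : ℂ) * Complex.I = (y + n * (2 * π)) * Complex.I := by rw [hn]; ring
    have h4 := mul_right_cancel₀ Complex.I_ne_zero h3
    exact_mod_cast h4
  have hn0 : n = 0 := by
    have hpi := Real.pi_pos
    have h5 : (n : ℝ) * (2 * π) < 2 * π := by linarith [hx.2, hy.1]
    have h6 : -(2 * π) < (n : ℝ) * (2 * π) := by linarith [hx.1, hy.2]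
    have h7 : (n : ℝ) < 1 := by nlinarith
    have h8 : (-1 : ℝ) < n := by nlinarith
    have h7' : n < 1 := by exact_mod_cast h7
    have h8' : -1 < n := by exact_mod_cast h8
    omega
  rw [h2, hn0]; simp

lemma continuous_dir : Continuous dir := by
  unfold dir; fun_prop

/-- A generalised sector of angle less than `2π` is Borel. -/
theorem measurableSet_gsector (v : ℂ) {B A : Set ℝ} (hB : MeasurableSet B)
    (hA : MeasurableSet A) (hB0 : B ⊆ Ioi 0) {θ₀ : ℝ} (hAθ : A ⊆ Ico θ₀ (θ₀ + 2 * π)) :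
    MeasurableSet (gsector v B A) := by
  have h : gsector v B A = (fun p : ℝ × ℝ => v + p.1 * dir p.2) '' (B ×ˢ A) := by
    ext z
    simp only [gsector, mem_ofPred_eq, mem_image, mem_prod, Prod.exists]
    constructor
    · rintro ⟨r, hr, θ, hθ, rfl⟩; exact ⟨r, θ, ⟨hr, hθ⟩, rfl⟩
    · rintro ⟨r, θ, ⟨hr, hθ⟩, rfl⟩; exact ⟨r, hr, θ, hθ, rfl⟩
  rw [h]
  refine (hB.prod hA).image_of_continuousOn_injOn ?_ ?_
  · have := continuous_dir
    fun_prop
  · rintro ⟨r, θ⟩ ⟨hr, hθ⟩ ⟨r', θ'⟩ ⟨hr', hθ'⟩ heq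
    have h1 : (r : ℂ) * dir θ = r' * dir θ' := add_left_cancel heq
    have hr0 : 0 < r := hB0 hr
    have hr0' : 0 < r' := hB0 hr'
    have h2 : r = r' := by
      have := congrArg (fun z => ‖z‖) h1
      simpa [norm_dir, abs_of_pos hr0, abs_of_pos hr0'] using this
    subst h2
    have h3 : dir θ = dir θ' := mul_left_cancel₀ (by exact_mod_cast hr0.ne') h1
    have h4 : θ = θ' := dir_injOn θ₀ (hAθ hθ) (hAθ hθ') h3
    rw [h4]

end Vale.Agent.P134.PS.H399
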