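import Vale.Agent.P134.PS.Defs
import Vale.Agent.P134.PS.H399.Dev
import Vale.Agent.P134.PS.H399.Sector

/-! # Straight paths on the surface and the developing net -/

namespace Vale.Agent.P134.PS.H399

open MeasureTheory Set
open scoped ENNReal RealInnerProductSpace Real

/-- the open edge between the faces `i` and `j`, in the chart of `i` -/
def edge (S : Surf) (i j : S.ι) : Set ℂ :=
  {w | i ≠ j ∧ ∃ x ∈ S.F i ∩ S.F j, x ∉ S.V ∧ S.ch i x = w}

lemma ch_injOn (S : Surf) (i : S.ι) : InjOn (S.ch i) (S.F i) := by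
  intro x hx y hy h
  have := S.ch_iso i x hx y hy
  rw [h, dist_self] at this
  exact dist_eq_zero.1 this.symm

lemma convex_C (S : Surf) (i : S.ι) : Convex ℝ (S.C i) := (S.convex i).affine_image (S.ch i)

lemma convex_edge (S : Surf) (i j : S.ι) : Convex ℝ (edge S i j) := by
  by_cases h : i ≠ j ∧ ∃ x ∈ S.F i ∩ S.F j, x ∉ S.V
  · obtain ⟨hij, x, hx, hxV⟩ := h
    obtain ⟨a, ha, b, hb, hab, hseg, hxo, hall⟩ := S.meet i j hij x hx hxV
    have he : edge S i j = S.ch i '' (openSegment ℝ a b) := by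
      ext w
      constructor
      · rintro ⟨_, y, hy, hyV, rfl⟩
        refine ⟨y, ?_, rfl⟩
        rw [hseg, ← insert_endpoints_openSegment] at hy
        rcases hy with rfl | rfl | hy
        · exact absurd ha hyV
        · exact absurd hb hyV
        · exact hy
      · rintro ⟨y, hy, rfl⟩
        refine ⟨hij, y, ?_, (hall y hy).1, rfl⟩
        rw [hseg]; exact openSegment_subset_segment ℝ a b hy
    rw [he]
    exact (convex_openSegment a b).affine_image (S.ch i)
  · have he : edge S i j = ∅ := by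
      ext w
      simp only [mem_empty_iff_false, iff_false]
      rintro ⟨h1, x, hx, hxV, _⟩
      exact h ⟨h1, x, hx, hxV⟩
    rw [he]; exact convex_empty

/-- the developing net of the surface `S` with gluing isometries `Q` -/
def net {S : Surf} (Q : S.Glue) : Net S.ι where
  K := S.C
  E := edge S
  τ := Q.T
  convK := convex_C S
  convE := convex_edge S
  disjKE := by
    intro i j
    rw [Set.disjoint_left]
    rintro w hw ⟨hij, x, hx, hxV, rfl⟩
    obtain ⟨a, ha, b, hb, hab, hseg, hxo, hall⟩ := S.meet i j hij x hx hxV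
    exact (hall x hxo).2.1 hw
  disjE := by
    intro i j j' hjj
    rw [Set.disjoint_left]
    rintro w ⟨hij, x, hx, hxV, rfl⟩ ⟨hij', x', hx', hxV', h⟩
    have := ch_injOn S i hx'.1 hx.1 h
    subst this
    obtain ⟨a, ha, b, hb, hab, hseg, hxo, hall⟩ := S.meet i j hij x' hx hxV
    rcases (hall x' hxo).2.2.2 j' hx'.2 with h | h
    · exact hij' h.symm
    · exact hjj h.symm

section path

variable {S : Surf} {Q : S.Glue} {n : ℕ} {p : ℕ → E3} {g : ℕ → S.ι}

/-- developed points -/
noncomputable def P (Q : S.Glue) (p : ℕ → E3) (g : ℕ → S.ι) : ℕ → ℂ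
  | 0 => S.ch (g 0) (p 0)
  | k + 1 => Q.dev g k (S.ch (g k) (p (k + 1)))

lemma adj (h : Q.Straight n p g) {k : ℕ} (hk : k + 1 < n) :
    p (k + 1) ∈ S.F (g k) ∩ S.F (g (k + 1)) ∧ p (k + 1) ∉ S.V ∧ g k ≠ g (k + 1) :=
  ⟨⟨(h.2.1 k (by omega)).2, (h.2.1 (k + 1) hk).1⟩, (h.2.2.2 k hk).2.1, (h.2.2.2 k hk).1⟩

lemma adj' (h : Q.Straight n p g) {k : ℕ} (hk : k + 1 < n) : S.Adj (g k) (g (k + 1)) :=
  ⟨(adj h hk).2.2, p (k + 1), (adj h hk).1, (adj h hk).2.1⟩

/-- Lemma A -/
lemma P_eq (h : Q.Straight n p g) {k : ℕ} (hk : k < n) :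
    Q.dev g k (S.ch (g k) (p k)) = P Q p g k := by
  cases k with
  | zero => rfl
  | succ k =>
    show Q.dev g k (Q.T (g k) (g (k + 1)) (S.ch (g (k + 1)) (p (k + 1)))) = _
    rw [Q.T_edge _ _ (adj' h hk) _ (adj h hk).1]
    rfl

/-- Lemma C -/
lemma dist_P (h : Q.Straight n p g) {k : ℕ} (hk : k < n) :
    dist (P Q p g k) (P Q p g (k + 1)) = dist (p k) (p (k + 1)) := by
  rw [← P_eq h hk]
  show dist (Q.dev g k _) (Q.dev g k _) = _
  rw [(Q.dev g k).isometry.dist_eq]
  exact S.ch_iso _ _ (h.2.1 k hk).1 _ (h.2.1 k hk).2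

lemma image_openSegment_isom (U : ℂ ≃ᵢ ℂ) {x y z : ℂ} (h : z ∈ openSegment ℝ x y) :
    U z ∈ openSegment ℝ (U x) (U y) := by
  have := mem_image_of_mem (U.toRealAffineIsometryEquiv.toAffineEquiv.toAffineMap : ℂ →ᵃ[ℝ] ℂ) h
  rw [image_openSegment] at this
  simpa using this

/-- Lemma B -/
lemma P_mem (h : Q.Straight n p g) {k : ℕ} (hk : k + 1 < n) :
    P Q p g (k + 1) ∈ openSegment ℝ (P Q p g k) (P Q p g (k + 2)) := by
  have := image_openSegment_isom (Q.dev g k) (h.2.2.2 k hk).2.2
  rw [P_eq h (by omega : k < n)] at this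
  exact this

/-- the unit direction of the developed path -/
noncomputable def udir (Q : S.Glue) (p : ℕ → E3) (g : ℕ → S.ι) : ℂ :=
  (dist (p 0) (p 1))⁻¹ • (P Q p g 1 - P Q p g 0)

lemma norm_udir (h : Q.Straight n p g) : ‖udir Q p g‖ = 1 := by
  have h0 : p 0 ≠ p 1 := h.2.2.1 0 h.1
  have hd : 0 < dist (p 0) (p 1) := dist_pos.2 h0
  have e : ‖P Q p g 1 - P Q p g 0‖ = dist (p 0) (p 1) := by
    rw [← dist_eq_norm, dist_comm]; exact dist_P h h.1
  rw [udir, norm_smul, norm_inv, Real.norm_of_nonneg hd.le, e]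
  exact inv_mul_cancel₀ hd.ne'

lemma P_step (h : Q.Straight n p g) : ∀ k, k < n →
    P Q p g (k + 1) - P Q p g k = dist (p k) (p (k + 1)) • udir Q p g := by
  intro k
  induction k with
  | zero =>
    intro _
    have h0 : p 0 ≠ p 1 := h.2.2.1 0 h.1
    have hd : dist (p 0) (p 1) ≠ 0 := (dist_pos.2 h0).ne'
    simp only [udir, zero_add, smul_smul]
    rw [mul_inv_cancel₀ hd, one_smul]
  | succ k ih =>
    intro hk
    have ih := ih (by omega)
    obtain ⟨a, b, ha, hb, hab, hP⟩ := P_mem h hk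
    have hdk : 0 < dist (p k) (p (k + 1)) := dist_pos.2 (h.2.2.1 k (by omega))
    have e1 : b • (P Q p g (k + 2) - P Q p g (k + 1)) = a • (P Q p g (k + 1) - P Q p g k) := by
      have : (a + b) • P Q p g (k + 1) = P Q p g (k + 1) := by rw [hab, one_smul]
      rw [add_smul] at this
      rw [smul_sub, smul_sub, sub_eq_sub_iff_add_eq_add]
      rw [add_comm (b • _), hP, this]
    have e2 : P Q p g (k + 2) - P Q p g (k + 1) =
        (b⁻¹ * a * dist (p k) (p (k + 1))) • udir Q p g := by
      rw [ih] at e1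
      have := congrArg (fun z => b⁻¹ • z) e1
      simp only [smul_smul] at this
      rw [inv_mul_cancel₀ hb.ne', one_smul] at this
      rw [this, mul_assoc]
    have e3 : b⁻¹ * a * dist (p k) (p (k + 1)) = dist (p (k + 1)) (p (k + 2)) := by
      have e4 : dist (p (k + 1)) (p (k + 2)) = ‖P Q p g (k + 2) - P Q p g (k + 1)‖ := by
        rw [← dist_eq_norm, dist_comm (P Q p g (k + 2))]; exact (dist_P h hk).symm
      rw [e4, e2, norm_smul, norm_udir h, mul_one, Real.norm_of_nonneg (by positivity)]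
    rw [e2, e3]

/-- Lemma D -/
lemma P_formula (h : Q.Straight n p g) : ∀ k, k ≤ n →
    P Q p g k = P Q p g 0 + Surf.len k p • udir Q p g := by
  intro k
  induction k with
  | zero => intro _; simp [Surf.len]
  | succ k ih =>
    intro hk
    have := P_step h k (by omega)
    rw [sub_eq_iff_eq_add] at this
    rw [this, ih (by omega), Surf.len, Surf.len, Finset.sum_range_succ, add_smul]
    abel

lemma len_succ (p : ℕ → E3) (k : ℕ) :
    Surf.len (k + 1) p = Surf.len k p + dist (p k) (p (k + 1)) := by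
  rw [Surf.len, Surf.len, Finset.sum_range_succ]

lemma len_lt_succ (h : Q.Straight n p g) {k : ℕ} (hk : k < n) :
    Surf.len k p < Surf.len (k + 1) p := by
  rw [len_succ]
  have := dist_pos.2 (h.2.2.1 k hk)
  linarith

lemma len_le (p : ℕ → E3) {k l : ℕ} (hkl : k ≤ l) : Surf.len k p ≤ Surf.len l p := by
  induction l, hkl using Nat.le_induction with
  | base => exact le_rfl
  | succ l hl ih => rw [len_succ]; have := dist_nonneg (x := p l) (y := p (l + 1)); linarith

lemma len_pos (h : Q.Straight n p g) : 0 < Surf.len n p := by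
  have h1 := len_lt_succ h h.1
  have h2 : Surf.len 1 p ≤ Surf.len n p := len_le p h.1
  have h0 : Surf.len 0 p = 0 := by simp [Surf.len]
  simp only [zero_add] at h1
  linarith

/-- plane geometry: `ν ⊥ e`, `μ ⊥ e`, `μ ⊥ d`, `e, μ ≠ 0` imply `ν ⊥ d` -/
lemma inner_aux {μ ν d e : ℂ} (hμ : μ ≠ 0) (he : e ≠ 0) (h1 : inner ℝ μ d = (0 : ℝ))
    (h2 : inner ℝ μ e = (0 : ℝ)) (h3 : inner ℝ ν e = (0 : ℝ)) : inner ℝ ν d = (0 : ℝ) := by
  have hin : ∀ z w : ℂ, inner ℝ z w = z.re * w.re - -z.im * w.im := by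
    intro z w
    rw [Complex.inner, Complex.mul_re, Complex.conj_re, Complex.conj_im]; ring
  simp only [hin] at *
  have hc : d.re * e.im = d.im * e.re := by
    have k1 : μ.re * (d.re * e.im - d.im * e.re) = 0 := by linear_combination e.im * h1 - d.im * h2
    have k2 : μ.im * (d.re * e.im - d.im * e.re) = 0 := by
      linear_combination -e.re * h1 + d.re * h2
    rcases mul_eq_zero.1 k1 with h | h
    · rcases mul_eq_zero.1 k2 with h' | h'
      · exact absurd (Complex.ext (by simpa using h) (by simpa using h')) hμ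
      · linarith
    · linarith
  have k1 : e.re * (ν.re * d.re - -ν.im * d.im) = 0 := by
    linear_combination d.re * h3 - ν.im * hc
  have k2 : e.im * (ν.re * d.re - -ν.im * d.im) = 0 := by
    linear_combination d.im * h3 + ν.re * hc
  rcases mul_eq_zero.1 k1 with h | h
  · rcases mul_eq_zero.1 k2 with h' | h'
    · exact absurd (Complex.ext (by simpa using h) (by simpa using h')) he
    · exact h'
  · exact h

lemma aux_eq {s t a b x : ℝ} (hs : 0 < s) (ht : 0 < t) (hst : s + t = 1) (ha : a ≤ x)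
    (hb : b ≤ x) (h : x = s * a + t * b) : a = x ∧ b = x := by
  have h1 : s * (x - a) + t * (x - b) = 0 := by
    have : (s + t) * x = x := by rw [hst, one_mul]
    linarith
  have h2 : 0 ≤ s * (x - a) := mul_nonneg hs.le (by linarith)
  have h3 : 0 ≤ t * (x - b) := mul_nonneg ht.le (by linarith)
  have h4 : s * (x - a) = 0 := by linarith
  have h5 : t * (x - b) = 0 := by linarith
  constructor
  · rcases mul_eq_zero.1 h4 with h | h
    · exact absurd h hs.ne'
    · linarith
  · rcases mul_eq_zero.1 h5 with h | h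
    · exact absurd h ht.ne'
    · linarith

/-- the `k`-th segment of the path lies on a supporting line of the face -/
def Bd (p : ℕ → E3) (g : ℕ → S.ι) (k : ℕ) : Prop :=
  ∃ μ : ℂ, μ ≠ 0 ∧ (∀ w ∈ S.C (g k), inner ℝ μ w ≤ inner ℝ μ (S.ch (g k) (p (k + 1)))) ∧
    inner ℝ μ (S.ch (g k) (p (k + 1))) = inner ℝ μ (S.ch (g k) (p k))

lemma Bd.succ (h : Q.Straight n p g) {k : ℕ} (hk : k + 1 < n) (hb : Bd p g k) :
    Bd p g (k + 1) := by
  obtain ⟨μ, hμ, hle, heq⟩ := hb
  obtain ⟨hx, hxV, hij⟩ := adj h hk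
  obtain ⟨a, ha, b, hb, hab, hseg, hxo, hall⟩ := S.meet _ _ hij _ hx hxV
  obtain ⟨ν, hν, c, hc1, hc2, hc3⟩ := Q.side _ _ (adj' h hk)
  have haF : a ∈ S.F (g k) ∩ S.F (g (k + 1)) := by rw [hseg]; exact left_mem_segment ℝ a b
  have hbF : b ∈ S.F (g k) ∩ S.F (g (k + 1)) := by rw [hseg]; exact right_mem_segment ℝ a b
  have hxo' : S.ch (g k) (p (k + 1)) ∈ openSegment ℝ (S.ch (g k) a) (S.ch (g k) b) := by
    have := mem_image_of_mem (S.ch (g k)) hxo
    rwa [image_openSegment] at this
  set A := S.ch (g k) a with hA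
  set B := S.ch (g k) b with hB
  set X := S.ch (g k) (p (k + 1)) with hX
  set Y := S.ch (g k) (p k) with hY
  have hAl := hle A ⟨a, haF.1, rfl⟩
  have hBl := hle B ⟨b, hbF.1, rfl⟩
  obtain ⟨s, t, hs, ht, hst, hXe⟩ := hxo'
  have hXi : inner ℝ μ X = s * inner ℝ μ A + t * inner ℝ μ B := by
    rw [← hXe, inner_add_right, inner_smul_right, inner_smul_right]
  have hAB : inner ℝ μ (B - A) = (0 : ℝ) := by
    obtain ⟨e1, e2⟩ := aux_eq hs ht hst hAl hBl hXi
    rw [inner_sub_right, e1, e2, sub_self]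
  have hAB0 : B - A ≠ 0 := by
    intro h0
    exact hab (ch_injOn S (g k) haF.1 hbF.1 (sub_eq_zero.1 h0).symm)
  have hνAB : inner ℝ ν (B - A) = (0 : ℝ) := by
    rw [inner_sub_right, hc3 b hbF, hc3 a haF, sub_self]
  have hνd : inner ℝ ν (X - Y) = (0 : ℝ) :=
    inner_aux hμ hAB0 (by rw [inner_sub_right, heq, sub_self]) hAB hνAB
  have hνX : inner ℝ ν X = c := hc3 _ hx
  have hνY : inner ℝ ν Y = c := by rw [inner_sub_right, hνX] at hνd; linarith
  obtain ⟨s', t', hs', ht', hst', hX'⟩ := (h.2.2.2 k hk).2.2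
  set T := Q.T (g k) (g (k + 1)) with hT
  have hνZ : inner ℝ ν (T (S.ch (g (k + 1)) (p (k + 2)))) = c := by
    have := congrArg (fun z => inner ℝ ν z) hX'
    simp only [inner_add_right, inner_smul_right] at this
    rw [← hY, ← hX, hνX, hνY] at this
    have e : t' * (inner ℝ ν (T (S.ch (g (k + 1)) (p (k + 2)))) - c) = 0 := by
      have : s' = 1 - t' := by linarith
      subst this
      linarith
    rcases mul_eq_zero.1 e with h | h
    · exact absurd h ht'.ne'
    · linarith
  -- linear part of `T`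
  set M := T.toRealAffineIsometryEquiv.linearIsometryEquiv with hM
  have hTM : ∀ x y : ℂ, T x - T y = M (x - y) := by
    intro x y
    have := T.toRealAffineIsometryEquiv.toAffineEquiv.toAffineMap.linearMap_vsub x y
    simpa using this.symm
  have hin : ∀ x y : ℂ, inner ℝ (M.symm ν) (x - y) = inner ℝ ν (T x) - inner ℝ ν (T y) := by
    intro x y
    rw [← inner_sub_right, hTM, ← M.inner_map_map, M.apply_symm_apply]
  have hX1 : T (S.ch (g (k + 1)) (p (k + 1))) = X := Q.T_edge _ _ (adj' h hk) _ hx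
  refine ⟨- M.symm ν, ?_, ?_, ?_⟩
  · intro h0
    have : M.symm ν = 0 := by simpa using h0
    have h2 : ‖M.symm ν‖ = 1 := by rw [M.symm.norm_map, hν]
    rw [this, norm_zero] at h2
    exact zero_ne_one h2
  · rintro w ⟨x, hxF, rfl⟩
    have h1 := hin (S.ch (g (k + 1)) x) (S.ch (g (k + 1)) (p (k + 2)))
    have h2 := hc2 x hxF
    rw [inner_sub_right, hνZ] at h1
    rw [inner_neg_left, inner_neg_left]
    linarith
  · have h1 := hin (S.ch (g (k + 1)) (p (k + 2))) (S.ch (g (k + 1)) (p (k + 1)))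
    rw [inner_sub_right, hνZ, hX1, hνX] at h1
    rw [inner_neg_left, inner_neg_left]
    linarith

lemma Bd.false_of_mem {k : ℕ} (hb : Bd p g k) (hz : S.ch (g k) (p (k + 1)) ∈ interior (S.C (g k))) :
    False := by
  obtain ⟨μ, hμ, hle, _⟩ := hb
  obtain ⟨ε, hε, hball⟩ := Metric.isOpen_iff.1 isOpen_interior _ hz
  set z := S.ch (g k) (p (k + 1)) with hzdef
  have hn : 0 < ‖μ‖ := norm_pos_iff.2 hμ
  have h1 : z + (ε / (2 * ‖μ‖)) • μ ∈ Metric.ball z ε := by
    rw [Metric.mem_ball, dist_eq_norm, add_sub_cancel_left, norm_smul,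
      Real.norm_of_nonneg (by positivity)]
    have : ε / (2 * ‖μ‖) * ‖μ‖ = ε / 2 := by field_simp
    rw [this]; linarith
  have h2 := hle _ (interior_subset (hball h1))
  rw [inner_add_right, inner_smul_right, real_inner_self_eq_norm_sq] at h2
  have : 0 < ε / (2 * ‖μ‖) * ‖μ‖ ^ 2 := by positivity
  linarith

lemma not_Bd (h : Q.Straight n p g)
    (hz : S.ch (g (n - 1)) (p n) ∈ interior (S.C (g (n - 1)))) {k : ℕ} (hk : k < n) :
    ¬ Bd p g k := by
  intro hb
  have h1 : ∀ m, k + m < n → Bd p g (k + m) := by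
    intro m
    induction m with
    | zero => intro _; exact hb
    | succ m ih => intro hm; exact (ih (by omega)).succ h (by omega)
  have h2 := h1 (n - 1 - k) (by omega)
  have e1 : k + (n - 1 - k) = n - 1 := by omega
  rw [e1] at h2
  refine h2.false_of_mem ?_
  have e2 : n - 1 + 1 = n := by omega
  rw [e2]; exact hz

/-- Lemma E: the inner points of the segments are interior points of the faces -/
lemma seg_interior (h : Q.Straight n p g)
    (hz : S.ch (g (n - 1)) (p n) ∈ interior (S.C (g (n - 1)))) {k : ℕ} (hk : k < n) {y : ℂ}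
    (hy : y ∈ openSegment ℝ (S.ch (g k) (p k)) (S.ch (g k) (p (k + 1)))) :
    y ∈ interior (S.C (g k)) := by
  by_contra hyn
  refine not_Bd h hz hk ?_
  obtain ⟨f, hf⟩ := geometric_hahn_banach_open_point (convex_C S (g k)).interior
    isOpen_interior hyn
  set μ := (InnerProductSpace.toDual ℝ ℂ).symm f with hμ
  have hμf : ∀ w, inner ℝ μ w = f w := fun w => InnerProductSpace.toDual_symm_apply
  have hne : (interior (S.C (g k))).Nonempty := S.ch_int (g k)
  have hle : ∀ w ∈ S.C (g k), inner ℝ μ w ≤ inner ℝ μ y := by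
    intro w hw
    have hcl : w ∈ closure (interior (S.C (g k))) := by
      rw [(convex_C S (g k)).closure_interior_eq_closure_of_nonempty_interior hne]
      exact subset_closure hw
    have hclosed : IsClosed {w : ℂ | f w ≤ f y} := isClosed_le f.continuous continuous_const
    have hsub : closure (interior (S.C (g k))) ⊆ {w : ℂ | f w ≤ f y} :=
      closure_minimal (fun w hw => (hf w hw).le) hclosed
    rw [hμf, hμf]
    exact hsub hcl
  obtain ⟨s, t, hs, ht, hst, hye⟩ := hy
  have hk1 := hle _ ⟨p k, (h.2.1 k hk).1, rfl⟩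
  have hk2 := hle _ ⟨p (k + 1), (h.2.1 k hk).2, rfl⟩
  have hyi : inner ℝ μ y = s * inner ℝ μ (S.ch (g k) (p k)) +
      t * inner ℝ μ (S.ch (g k) (p (k + 1))) := by
    rw [← hye, inner_add_right, inner_smul_right, inner_smul_right]
  obtain ⟨e1, e2⟩ := aux_eq hs ht hst hk1 hk2 hyi
  refine ⟨μ, ?_, fun w hw => ?_, by rw [e1, e2]⟩
  · intro h0
    obtain ⟨w, hw⟩ := hne
    have := hf w hw
    rw [← hμf, ← hμf, h0] at this
    simp at this
  · rw [e2]; exact hle w hw

lemma seg_interior_last (h : Q.Straight n p g)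
    (hz : S.ch (g (n - 1)) (p n) ∈ interior (S.C (g (n - 1)))) {y : ℂ}
    (hy : y ∈ openSegment ℝ (S.ch (g (n - 1)) (p (n - 1))) (S.ch (g (n - 1)) (p n)) ∨
      y = S.ch (g (n - 1)) (p n)) :
    y ∈ interior (S.C (g (n - 1))) := by
  rcases hy with hy | rfl
  · have e2 : n - 1 + 1 = n := by have := h.1; omega
    exact seg_interior h hz (by have := h.1; omega) (by rw [e2]; exact hy)
  · exact hz

/-- Lemma E, developed -/
lemma dev_seg (h : Q.Straight n p g)
    (hz : S.ch (g (n - 1)) (p n) ∈ interior (S.C (g (n - 1)))) {k : ℕ} (hk : k < n) {x : ℝ}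
    (h1 : Surf.len k p < x) (h2 : x < Surf.len (k + 1) p ∨ (k + 1 = n ∧ x ≤ Surf.len n p)) :
    P Q p g 0 + x • udir Q p g ∈ Q.dev g k '' interior (S.C (g k)) := by
  rw [← P_eq h h.1] at *
  have hPk := P_formula h k hk.le
  have hPk1 := P_formula h (k + 1) hk
  set u := udir Q p g with hu
  have hd := len_lt_succ h hk
  set s := Surf.len k p with hs
  set s' := Surf.len (k + 1) p with hs'
  -- either inside the open segment or the last point
  by_cases hx : x < s'
  · have hmem : P Q p g 0 + x • u ∈ openSegment ℝ (P Q p g k) (P Q p g (k + 1)) := by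
      have hd' : 0 < s' - s := by linarith
      refine ⟨(s' - x) / (s' - s), (x - s) / (s' - s), by apply div_pos <;> linarith,
        by apply div_pos <;> linarith, by field_simp; ring, ?_⟩
      rw [hPk, hPk1]
      have e : (s' - x) / (s' - s) + (x - s) / (s' - s) = 1 := by field_simp; ring
      have e' : (s' - x) / (s' - s) * s + (x - s) / (s' - s) * s' = x := by field_simp; ring
      calc ((s' - x) / (s' - s)) • (P Q p g 0 + s • u) + ((x - s) / (s' - s)) •
            (P Q p g 0 + s' • u)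
          = ((s' - x) / (s' - s) + (x - s) / (s' - s)) • P Q p g 0 +
            ((s' - x) / (s' - s) * s + (x - s) / (s' - s) * s') • u := by
              simp only [smul_add, smul_smul, add_smul]; abel
        _ = P Q p g 0 + x • u := by rw [e, e', one_smul]
    rw [← P_eq h hk] at hmem
    have e0 : Q.dev g 0 (S.ch (g 0) (p 0)) = P Q p g 0 := P_eq h h.1
    rw [e0]
    have hmem' := image_openSegment_isom (Q.dev g k).symm hmem
    refine ⟨(Q.dev g k).symm (P Q p g 0 + x • u), ?_, by simp⟩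
    refine seg_interior h hz hk ?_
    have e1 : (Q.dev g k).symm (P Q p g (k + 1)) = S.ch (g k) (p (k + 1)) := by
      show (Q.dev g k).symm (Q.dev g k _) = _
      rw [IsometryEquiv.symm_apply_apply]
    rw [e1, IsometryEquiv.symm_apply_apply] at hmem'
    exact hmem'
  · rcases h2 with h2 | ⟨hkn, hxn⟩
    · exact absurd h2 hx
    · have hxe : x = s' := by
        have e5 : s' = Surf.len n p := by rw [hs', hkn]
        push Not at hx
        linarith
      have e0 : Q.dev g 0 (S.ch (g 0) (p 0)) = P Q p g 0 := P_eq h h.1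
      rw [e0, hxe, ← hPk1]
      refine ⟨S.ch (g k) (p (k + 1)), ?_, rfl⟩
      have hk' : k = n - 1 := by omega
      subst hk'
      rw [hkn]
      exact hz

/-- the list `g (k+1), …, g (k+m)` -/
def fl (g : ℕ → S.ι) : ℕ → ℕ → List S.ι
  | _, 0 => []
  | k, m + 1 => g (k + 1) :: fl g (k + 1) m

lemma fin_fl (Q : S.Glue) (g : ℕ → S.ι) : ∀ (m k : ℕ),
    fin (net Q) (g k) (Q.dev g k) (fl g k m) = (g (k + m), Q.dev g (k + m))
  | 0, k => rfl
  | m + 1, k => by
    show fin (net Q) (g (k + 1)) ((Q.T (g k) (g (k + 1))).trans (Q.dev g k)) (fl g (k + 1) m) = _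
    have := fin_fl Q g m (k + 1)
    rw [show k + (m + 1) = k + 1 + m by ring]
    exact this

lemma Go_fl (h : Q.Straight n p g)
    (hz : S.ch (g (n - 1)) (p n) ∈ interior (S.C (g (n - 1)))) :
    ∀ (m k : ℕ), k + m = n - 1 → Go (net Q) (P Q p g 0) (P Q p g n) (g k) (Q.dev g k)
      (Surf.len k p / Surf.len n p) (fl g k m) := by
  have hn := h.1
  have hL := len_pos h
  have hln : ∀ r : ℝ, ln (P Q p g 0) (P Q p g n) r =
      P Q p g 0 + (r * Surf.len n p) • udir Q p g := by
    intro r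
    rw [ln, P_formula h n le_rfl, add_sub_cancel_left, smul_smul]
  intro m
  induction m with
  | zero =>
    intro k hk
    have hkn : k + 1 = n := by omega
    have hlt := len_lt_succ h (by omega : k < n)
    rw [hkn] at hlt
    refine ⟨by rw [div_lt_one hL]; exact hlt, fun r hr hr1 => ?_⟩
    rw [hln]
    rw [div_lt_iff₀ hL] at hr
    refine dev_seg h hz (by omega) hr (Or.inr ⟨hkn, ?_⟩)
    nlinarith
  | succ m ih =>
    intro k hk
    have hkn : k + 1 < n := by omega
    have hlt := len_lt_succ h (by omega : k < n)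
    have hlt2 := len_lt_succ h hkn
    have hle2 : Surf.len (k + 2) p ≤ Surf.len n p := len_le p (by omega)
    refine ⟨Surf.len (k + 1) p / Surf.len n p, by gcongr, by rw [div_lt_one hL]; linarith,
      fun r hr hr1 => ?_, ?_, ih (k + 1) (by omega)⟩
    · rw [hln]
      rw [div_lt_iff₀ hL] at hr
      rw [lt_div_iff₀ hL] at hr1
      exact dev_seg h hz (by omega) hr (Or.inl hr1)
    · rw [hln, div_mul_cancel₀ _ hL.ne', ← P_formula h (k + 1) (by omega)]
      exact ⟨S.ch (g k) (p (k + 1)), ⟨(adj h hkn).2.2, p (k + 1), (adj h hkn).1, (adj h hkn).2.1,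
        rfl⟩, rfl⟩

end path

end Vale.Agent.P134.PS.H399
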