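import Vale.Agent.P134.PS.BlockPE
import Mathlib.Analysis.Calculus.MeanValue

/-! # The surface distance inside a ball where the surface is a graph of small slope -/

namespace Vale.Agent.P134.PS.H399

open MeasureTheory Set Filter Topology
open scoped ENNReal RealInnerProductSpace Real

/-- faces meeting a small ball around `y` contain `y` -/
lemma exists_loc (S : Surf) (y : E3) : ∃ δ > 0, ∀ y' : E3, dist y' y < δ → ∀ i, y' ∈ S.F i →
    y ∈ S.F i := by
  classical
  have hfin := S.locFin (‖y‖ + 1)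
  set I : Set S.ι := {i | (S.F i ∩ Metric.closedBall 0 (‖y‖ + 1)).Nonempty} with hI
  have hcl : IsClosed (⋃ i ∈ {i | i ∈ I ∧ y ∉ S.F i}, S.F i) := by
    apply Set.Finite.isClosed_biUnion
    · exact hfin.subset fun i hi => hi.1
    · intro i _
      exact (S.compact i).isClosed
  have hy : y ∉ ⋃ i ∈ {i | i ∈ I ∧ y ∉ S.F i}, S.F i := by
    simp only [mem_iUnion, not_exists]
    intro i hi h
    exact hi.2 h
  obtain ⟨ε, hε, hball⟩ := Metric.isOpen_iff.1 hcl.isOpen_compl y hy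
  refine ⟨min ε 1, lt_min hε one_pos, fun y' hy' i hi => ?_⟩
  by_contra hn
  have h1 : y' ∈ Metric.ball y ε := lt_of_lt_of_le hy' (min_le_left _ _)
  have h2 : i ∈ I := by
    refine ⟨y', hi, ?_⟩
    rw [mem_closedBall_zero_iff]
    have h3 : ‖y'‖ ≤ ‖y' - y‖ + ‖y‖ := by
      have := norm_add_le (y' - y) y
      simpa using this
    have h4 : ‖y' - y‖ < 1 := by rw [← dist_eq_norm]; exact lt_of_lt_of_le hy' (min_le_right _ _)
    linarith
  exact hball h1 (mem_biUnion (x := i) ⟨h2, hn⟩ hi)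

/-- `n` is a good direction for `W` on the ball -/
def GD (W : E3 → ℝ) (κ : ℝ) (x : E3) (R : ℝ) (n : E3) : Prop :=
  ‖n‖ = 1 ∧ ∀ a ∈ Metric.ball x R, ∀ b ∈ Metric.ball x R,
    |W a - W b - ⟪n, a - b⟫| ≤ κ * ‖a - b‖

lemma norm_le_of_inner {n v p : E3} (hn : ‖n‖ = 1) {κ : ℝ} (hκ0 : 0 ≤ κ) (hκ : κ < 1)
    (h1 : |⟪n, v⟫| ≤ κ * ‖v‖) {r : ℝ} (hr : v = p + r • n) :
    ‖v‖ ≤ ‖p‖ / Real.sqrt (1 - κ ^ 2) := by
  have h1κ : 0 < 1 - κ ^ 2 := by nlinarith
  have hs : 0 < Real.sqrt (1 - κ ^ 2) := Real.sqrt_pos.2 h1κ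
  rw [le_div_iff₀ hs]
  -- component orthogonal to n
  have e1 : ‖v - ⟪n, v⟫ • n‖ ^ 2 = ‖v‖ ^ 2 - ⟪n, v⟫ ^ 2 := by
    rw [norm_sub_sq_real, inner_smul_right, norm_smul, hn, real_inner_comm, Real.norm_eq_abs,
      mul_one, sq_abs]
    ring
  have e2 : v - ⟪n, v⟫ • n = p - ⟪n, p⟫ • n := by
    rw [hr, inner_add_right, inner_smul_right, real_inner_self_eq_norm_sq, hn]
    simp only [one_pow, mul_one, add_smul]
    abel
  have e3 : ‖p - ⟪n, p⟫ • n‖ ^ 2 = ‖p‖ ^ 2 - ⟪n, p⟫ ^ 2 := by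
    rw [norm_sub_sq_real, inner_smul_right, norm_smul, hn, real_inner_comm, Real.norm_eq_abs,
      mul_one, sq_abs]
    ring
  have e4 : ‖v‖ ^ 2 - ⟪n, v⟫ ^ 2 ≤ ‖p‖ ^ 2 := by
    rw [← e1, e2, e3]; nlinarith [sq_nonneg (⟪n, p⟫ : ℝ)]
  have e5 : (⟪n, v⟫ : ℝ) ^ 2 ≤ κ ^ 2 * ‖v‖ ^ 2 := by
    rw [← sq_abs (⟪n, v⟫ : ℝ), ← mul_pow]
    exact pow_le_pow_left₀ (abs_nonneg _) h1 2
  have e6 : (‖v‖ * Real.sqrt (1 - κ ^ 2)) ^ 2 ≤ ‖p‖ ^ 2 := by
    rw [mul_pow, Real.sq_sqrt h1κ.le]; nlinarith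
  exact le_of_sq_le_sq e6 (norm_nonneg p)

/-- uniqueness and Lipschitz bound of the graph -/
lemma graph_lip {W : E3 → ℝ} {κ : ℝ} {x : E3} {R : ℝ} {n : E3} (h : GD W κ x R n)
    (hκ0 : 0 ≤ κ) (hκ : κ < 1) {a b d : E3} {t h' : ℝ} (ha : a ∈ Metric.ball x R)
    (hb : b ∈ Metric.ball x R) (hW : W a = W b) (hab : a - b = t • d + h' • n) :
    ‖a - b‖ ≤ |t| * ‖d‖ / Real.sqrt (1 - κ ^ 2) := by
  have h1 := h.2 a ha b hb
  rw [hW, sub_self, zero_sub, abs_neg] at h1
  have := norm_le_of_inner h.1 hκ0 hκ h1 hab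
  rwa [norm_smul, Real.norm_eq_abs] at this

/-- existence of the graph point -/
lemma exists_height {W : E3 → ℝ} (hWc : Continuous W) {κ : ℝ} {x : E3} {R : ℝ} {n : E3}
    (h : GD W κ x R n) (hκ : κ ≤ 1 / 2) {z : E3} {c H : ℝ} (hH : 0 ≤ H)
    (hin : ∀ s, |s| ≤ H → z + s • n ∈ Metric.ball x R) (hc : |W z - c| ≤ H / 2) :
    ∃ s, |s| ≤ H ∧ W (z + s • n) = c := by
  have hz : z ∈ Metric.ball x R := by simpa using hin 0 (by simpa using hH)
  have hinn : ∀ s, |s| ≤ H → |W (z + s • n) - W z - s| ≤ κ * |s| := by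
    intro s hs
    have h1 := h.2 _ (hin s hs) z hz
    have e : z + s • n - z = s • n := by abel
    rw [e, inner_smul_right, real_inner_self_eq_norm_sq, norm_smul, h.1, Real.norm_eq_abs] at h1
    simpa using h1
  have hcont : ContinuousOn (fun s : ℝ => W (z + s • n)) (Icc (-H) H) := by
    apply Continuous.continuousOn; fun_prop
  have h1 := hinn H (by rw [abs_of_nonneg hH])
  have h2 := hinn (-H) (by rw [abs_neg, abs_of_nonneg hH])
  rw [abs_of_nonneg hH] at h1
  rw [abs_neg, abs_of_nonneg hH] at h2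
  have h1' := (abs_le.1 h1).1
  have h2' := (abs_le.1 h2).2
  have hc1 := (abs_le.1 hc).1
  have hc2 := (abs_le.1 hc).2
  have hk : κ * H ≤ 1 / 2 * H := by gcongr
  have hmem : c ∈ Icc (W (z + (-H) • n)) (W (z + H • n)) := ⟨by linarith, by linarith⟩
  obtain ⟨s, hs, hs2⟩ := intermediate_value_Icc (by linarith) hcont hmem
  exact ⟨s, abs_le.2 hs, hs2⟩

/-- **Chord lemma.** -/
theorem chord (S : Surf) (Z : Set E3) {W : E3 → ℝ} (hWc : Continuous W) {c κ : ℝ} {x : E3}
    {R : ℝ} {n : E3} (h : GD W κ x R n) (hκ0 : 0 ≤ κ) (hκ : κ ≤ 1 / 2)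
    (hS : ∀ y ∈ Metric.ball x R, W y = c → ∃ i, y ∈ S.F i)
    {y y' : E3} (hy : dist y x ≤ R / 4) (hyy : dist y y' ≤ R / 8) (hR : 0 < R)
    (hWy : W y = c) (hWy' : W y' = c) :
    S.rho Z y' ≤ S.rho Z y + ENNReal.ofReal (dist y y' / Real.sqrt (1 - κ ^ 2)) := by
  set d := y' - y with hd
  have hdn : ‖d‖ ≤ R / 8 := by rw [hd, ← dist_eq_norm, dist_comm]; exact hyy
  have hyx : ‖y - x‖ ≤ R / 4 := by rw [← dist_eq_norm]; exact hy
  have hd0 := norm_nonneg d
  have h1κ : 0 < 1 - κ ^ 2 := by nlinarith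
  have hs0 : 0 < Real.sqrt (1 - κ ^ 2) := Real.sqrt_pos.2 h1κ
  -- points of the strip are in the ball
  have hball : ∀ t s : ℝ, 0 ≤ t → t ≤ 1 → |s| ≤ 3 * ‖d‖ →
      y + t • d + s • n ∈ Metric.ball x R := by
    intro t s ht0 ht1 hs
    rw [Metric.mem_ball, dist_eq_norm]
    have e : y + t • d + s • n - x = (y - x) + t • d + s • n := by abel
    rw [e]
    have h1 : ‖t • d‖ ≤ ‖d‖ := by
      rw [norm_smul, Real.norm_of_nonneg ht0]; nlinarith
    have h2 : ‖s • n‖ ≤ 3 * ‖d‖ := by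
      rw [norm_smul, h.1, Real.norm_eq_abs, mul_one]; exact hs
    have h3 := norm_add₃_le (a := y - x) (b := t • d) (c := s • n)
    linarith
  have hex : ∀ t : ℝ, 0 ≤ t → t ≤ 1 → ∃ s, |s| ≤ 3 * ‖d‖ ∧ W (y + t • d + s • n) = c := by
    intro t ht0 ht1
    refine exists_height hWc h hκ (by positivity) (fun s hs => hball t s ht0 ht1 hs) ?_
    have hyb : y ∈ Metric.ball x R := by
      have := hball 0 0 le_rfl zero_le_one (by simp)
      simpa using this
    have hyt : y + t • d ∈ Metric.ball x R := by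
      have := hball t 0 ht0 ht1 (by simp)
      simpa using this
    have h1 := h.2 _ hyt _ hyb
    have e : y + t • d - y = t • d := by abel
    rw [e, hWy] at h1
    have h2 : |(⟪n, t • d⟫ : ℝ)| ≤ ‖d‖ := by
      refine (abs_real_inner_le_norm _ _).trans ?_
      rw [h.1, one_mul, norm_smul, Real.norm_of_nonneg ht0]; nlinarith
    have h3 : κ * ‖t • d‖ ≤ 1 / 2 * ‖d‖ := by
      rw [norm_smul, Real.norm_of_nonneg ht0]
      have : t * ‖d‖ ≤ ‖d‖ := by nlinarith
      calc κ * (t * ‖d‖) ≤ 1 / 2 * ‖d‖ := by gcongr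
        _ = _ := rfl
    have h4 : |W (y + t • d) - c| ≤ |W (y + t • d) - c - ⟪n, t • d⟫| + |(⟪n, t • d⟫ : ℝ)| := by
      have := abs_add_le (W (y + t • d) - c - ⟪n, t • d⟫) (⟪n, t • d⟫ : ℝ)
      simpa using this
    linarith
  choose! hh hh1 hh2 using hex
  set γ : ℝ → E3 := fun t => y + t • d + hh t • n with hγ
  have hγb : ∀ t ∈ Icc (0 : ℝ) 1, γ t ∈ Metric.ball x R := fun t ht =>
    hball t _ ht.1 ht.2 (hh1 t ht.1 ht.2)
  have hγW : ∀ t ∈ Icc (0 : ℝ) 1, W (γ t) = c := fun t ht => hh2 t ht.1 ht.2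
  set lam : ℝ := ‖d‖ / Real.sqrt (1 - κ ^ 2) with hlam
  have hlam0 : 0 ≤ lam := by positivity
  have hγl : ∀ t ∈ Icc (0 : ℝ) 1, ∀ t' ∈ Icc (0 : ℝ) 1, dist (γ t) (γ t') ≤ |t - t'| * lam := by
    intro t ht t' ht'
    rw [dist_eq_norm]
    have e : γ t - γ t' = (t - t') • d + (hh t - hh t') • n := by
      simp only [hγ, sub_smul]; abel
    have := graph_lip h hκ0 (by linarith) (hγb t ht) (hγb t' ht')
      (by rw [hγW t ht, hγW t' ht']) e
    rw [hlam, ← mul_div_assoc]; exact this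
  have huniq : ∀ t ∈ Icc (0 : ℝ) 1, W (y + t • d) = c → y + t • d ∈ Metric.ball x R →
      γ t = y + t • d := by
    intro t ht hW hb
    have e : γ t - (y + t • d) = (0 : ℝ) • d + hh t • n := by simp [hγ]
    have := graph_lip h hκ0 (by linarith) (hγb t ht) hb (by rw [hγW t ht, hW]) e
    rw [abs_zero, zero_mul, zero_div] at this
    exact sub_eq_zero.1 (norm_le_zero_iff.1 this)
  have hγ0 : γ 0 = y := by
    have := huniq 0 ⟨le_rfl, zero_le_one⟩ (by simpa using hWy)
      (by have := hball 0 0 le_rfl zero_le_one (by simp); simpa using this)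
    simpa using this
  have hγ1 : γ 1 = y' := by
    have e : y + (1 : ℝ) • d = y' := by rw [one_smul, hd]; abel
    have := huniq 1 ⟨zero_le_one, le_rfl⟩ (by rw [e]; exact hWy')
      (by have := hball 1 0 zero_le_one le_rfl (by simp); simpa using this)
    rw [this, e]
  -- truncated distance along the curve
  have key : ∀ N : ℝ, 0 ≤ N → min (S.rho Z y') (ENNReal.ofReal N) ≤
      min (S.rho Z y) (ENNReal.ofReal N) + ENNReal.ofReal lam := by
    intro N hN
    set f : ℝ → ℝ := fun t => (min (S.rho Z (γ t)) (ENNReal.ofReal N)).toReal with hf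
    have hfin : ∀ z : E3, min (S.rho Z z) (ENNReal.ofReal N) ≠ ⊤ := fun z =>
      ne_top_of_le_ne_top ENNReal.ofReal_ne_top (min_le_right _ _)
    have hloc : ∀ t ∈ Icc (0 : ℝ) 1, ∃ δ > 0, ∀ t' ∈ Icc (0 : ℝ) 1, |t' - t| < δ →
        |f t' - f t| ≤ lam * |t' - t| := by
      intro t ht
      obtain ⟨δ, hδ, hloc⟩ := exists_loc S (γ t)
      refine ⟨δ / (lam + 1), by positivity, fun t' ht' htt => ?_⟩
      have hdist : dist (γ t') (γ t) ≤ |t' - t| * lam := hγl t' ht' t ht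
      have hlt : dist (γ t') (γ t) < δ := by
        refine lt_of_le_of_lt hdist ?_
        rw [lt_div_iff₀ (by positivity)] at htt
        nlinarith [abs_nonneg (t' - t)]
      obtain ⟨i, hi⟩ := hS _ (hγb t' ht') (hγW t' ht')
      have hi' := hloc _ hlt i hi
      have r1 := Surf.rho_le_face (Z := Z) hi' hi
      have r2 := Surf.rho_le_face (Z := Z) hi hi'
      have aux : ∀ a b : E3, S.rho Z b ≤ S.rho Z a + ENNReal.ofReal (dist a b) →
          (min (S.rho Z b) (ENNReal.ofReal N)).toReal ≤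
            (min (S.rho Z a) (ENNReal.ofReal N)).toReal + dist a b := by
        intro a b hab
        have h1 : min (S.rho Z b) (ENNReal.ofReal N) ≤
            min (S.rho Z a) (ENNReal.ofReal N) + ENNReal.ofReal (dist a b) := by
          rcases le_total (S.rho Z a) (ENNReal.ofReal N) with h | h
          · rw [min_eq_left h]; exact (min_le_left _ _).trans hab
          · rw [min_eq_right h]; exact (min_le_right _ _).trans le_self_add
        have h2 := ENNReal.toReal_mono (ENNReal.add_ne_top.2 ⟨hfin a, ENNReal.ofReal_ne_top⟩) h1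
        rwa [ENNReal.toReal_add (hfin a) ENNReal.ofReal_ne_top,
          ENNReal.toReal_ofReal dist_nonneg] at h2
      have a1 := aux _ _ r1
      have a2 := aux _ _ r2
      rw [dist_comm (γ t) (γ t')] at a2
      rw [abs_le]
      constructor <;> simp only [hf] <;> nlinarith
    have hfc : ContinuousOn f (Icc 0 1) := by
      intro t ht
      rw [Metric.continuousWithinAt_iff]
      intro ε hε
      obtain ⟨δ, hδ, hl⟩ := hloc t ht
      refine ⟨min δ (ε / (lam + 1)), by positivity, fun t' ht' hd => ?_⟩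
      rw [Real.dist_eq] at hd ⊢
      have h1 := hl t' ht' (lt_of_lt_of_le hd (min_le_left _ _))
      have h2 := lt_of_lt_of_le hd (min_le_right _ _)
      rw [lt_div_iff₀ (by positivity)] at h2
      nlinarith [abs_nonneg (t' - t)]
    have hmv := image_le_of_liminf_slope_right_le_deriv_boundary (f := f) (a := 0) (b := 1) hfc
      (B := fun t => f 0 + lam * t) (B' := fun _ => lam) (by simp)
      (by fun_prop) (fun t _ => by
        have : HasDerivAt (fun t : ℝ => f 0 + lam * t) (lam * 1) t :=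
          ((hasDerivAt_id t).const_mul lam).const_add (f 0)
        rw [mul_one] at this
        exact this.hasDerivWithinAt)
      (fun t ht r hr => by
        apply Filter.Eventually.frequently
        obtain ⟨δ, hδ, hl⟩ := hloc t ⟨ht.1, ht.2.le⟩
        have h1 : ∀ᶠ z in 𝓝[>] t, z < t + δ :=
          nhdsWithin_le_nhds (eventually_lt_nhds (by linarith))
        have h2 : ∀ᶠ z in 𝓝[>] t, z < 1 := nhdsWithin_le_nhds (eventually_lt_nhds ht.2)
        have h3 : ∀ᶠ z in 𝓝[>] t, t < z := self_mem_nhdsWithin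
        filter_upwards [h1, h2, h3] with z hz1 hz2 hz3
        have hzt : 0 < z - t := by linarith
        have := hl z ⟨by linarith [ht.1], hz2.le⟩ (by rw [abs_of_pos hzt]; linarith)
        rw [abs_of_pos hzt] at this
        rw [slope_def_field]
        refine lt_of_le_of_lt ?_ hr
        rw [div_le_iff₀ hzt]
        exact (le_abs_self _).trans this)
    have h1 := hmv (x := 1) ⟨zero_le_one, le_rfl⟩
    simp only [mul_one] at h1
    rw [← ENNReal.ofReal_toReal (hfin y'), ← ENNReal.ofReal_toReal (hfin y),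
      ← ENNReal.ofReal_add ENNReal.toReal_nonneg hlam0]
    apply ENNReal.ofReal_le_ofReal
    simp only [hf, hγ0, hγ1] at h1
    exact h1
  have hlam' : lam = dist y y' / Real.sqrt (1 - κ ^ 2) := by
    rw [hlam, hd, ← dist_eq_norm, dist_comm]
  rw [← hlam']
  by_cases hy0 : S.rho Z y = ⊤
  · rw [hy0, top_add]; exact le_top
  -- take N large
  obtain ⟨N0, hN0⟩ : ∃ N : ℝ, N = (S.rho Z y).toReal + lam + 1 := ⟨_, rfl⟩
  have hN0' : 0 ≤ N0 := by rw [hN0]; positivity
  have h1 := key N0 hN0'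
  have h2 : min (S.rho Z y) (ENNReal.ofReal N0) + ENNReal.ofReal lam < ENNReal.ofReal N0 := by
    refine lt_of_le_of_lt (add_le_add_left (min_le_left _ _) _) ?_
    rw [← ENNReal.ofReal_toReal hy0, ← ENNReal.ofReal_add ENNReal.toReal_nonneg hlam0]
    apply (ENNReal.ofReal_lt_ofReal_iff (by rw [hN0]; positivity)).2
    rw [hN0]; linarith
  have h3 : S.rho Z y' < ENNReal.ofReal N0 := by
    by_contra hcon
    push Not at hcon
    rw [min_eq_right hcon] at h1
    exact absurd (lt_of_le_of_lt h1 h2) (lt_irrefl _)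
  rw [min_eq_left h3.le] at h1
  exact h1.trans (add_le_add_left (min_le_left _ _) _)

end Vale.Agent.P134.PS.H399
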