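import Mathlib.MeasureTheory.Measure.Lebesgue.Basic
import Mathlib.Analysis.SpecialFunctions.Trigonometric.Basic

/-! # Directions at a vertex: measure of the directions at distance at least `π` on both sides -/

namespace Vale.Agent.P134.PS.H399

open MeasureTheory Set Real

/-- sum of the angles of the corners before the corner `j` -/
noncomputable def ps {m : ℕ} (α : Fin m → ℝ) (j : Fin m) : ℝ :=
  ∑ i ∈ Finset.univ.filter (· < j), α i

lemma ps_nonneg {m : ℕ} {α : Fin m → ℝ} (hα : ∀ j, 0 ≤ α j) (j : Fin m) : 0 ≤ ps α j :=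
  Finset.sum_nonneg fun i _ => hα i

lemma ps_add_le {m : ℕ} {α : Fin m → ℝ} (hα : ∀ j, 0 ≤ α j) {j k : Fin m} (h : j < k) :
    ps α j + α j ≤ ps α k := by
  have h1 : ps α j + α j = ∑ i ∈ insert j (Finset.univ.filter (· < j)), α i := by
    rw [Finset.sum_insert (by simp)]; unfold ps; ring
  rw [h1]
  apply Finset.sum_le_sum_of_subset_of_nonneg
  · intro i hi
    simp only [Finset.mem_insert, Finset.mem_filter, Finset.mem_univ, true_and] at hi ⊢
    rcases hi with rfl | hi
    · exact h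
    · exact hi.trans h
  · intro i _ _; exact hα i

lemma ps_add_le_total {m : ℕ} {α : Fin m → ℝ} (hα : ∀ j, 0 ≤ α j) (j : Fin m) :
    ps α j + α j ≤ ∑ i, α i := by
  have h1 : ps α j + α j = ∑ i ∈ insert j (Finset.univ.filter (· < j)), α i := by
    rw [Finset.sum_insert (by simp)]; unfold ps; ring
  rw [h1]
  exact Finset.sum_le_sum_of_subset_of_nonneg (Finset.subset_univ _) fun i _ _ => hα i

/-- directions of the circle of length `θ` at distance at least `π` from `ω₀` on both sides -/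
def far (θ ω₀ : ℝ) : Set ℝ := {ω | π ≤ |ω - ω₀| ∧ |ω - ω₀| ≤ θ - π}

lemma volume_far_le {θ ω₀ : ℝ} :
    volume (far θ ω₀ ∩ Icc 0 θ) ≤ ENNReal.ofReal (θ - 2 * π) := by
  have hpi := Real.pi_pos
  by_cases hθ : θ < 2 * π
  · have : far θ ω₀ ∩ Icc 0 θ = ∅ := by
      ext x
      simp only [far, mem_inter_iff, mem_ofPred_eq, mem_empty_iff_false, iff_false]
      rintro ⟨⟨h2, h3⟩, _⟩
      linarith
    rw [this]; simp
  push Not at hθ
  have hsub : far θ ω₀ ∩ Icc 0 θ ⊆ Icc (ω₀ + π) (min θ (ω₀ + θ - π)) ∪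
      Icc (max 0 (ω₀ - θ + π)) (ω₀ - π) := by
    rintro x ⟨⟨h2, h3⟩, h4, h5⟩
    rcases le_total 0 (x - ω₀) with h | h
    · left
      rw [abs_of_nonneg h] at h2 h3
      exact ⟨by linarith, le_min h5 (by linarith)⟩
    · right
      rw [abs_of_nonpos h] at h2 h3
      exact ⟨max_le h4 (by linarith), by linarith⟩
  refine (measure_mono hsub).trans ((measure_union_le _ _).trans ?_)
  rw [Real.volume_Icc, Real.volume_Icc]
  rcases le_total ω₀ π with h | h
  · have e2 : ENNReal.ofReal (ω₀ - π - max 0 (ω₀ - θ + π)) = 0 := by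
      apply ENNReal.ofReal_of_nonpos
      have := le_max_left 0 (ω₀ - θ + π)
      linarith
    rw [e2, add_zero]
    apply ENNReal.ofReal_le_ofReal
    have := min_le_right θ (ω₀ + θ - π)
    linarith
  · rcases le_total (θ - π) ω₀ with h' | h'
    · have e1 : ENNReal.ofReal (min θ (ω₀ + θ - π) - (ω₀ + π)) = 0 := by
        apply ENNReal.ofReal_of_nonpos
        have := min_le_left θ (ω₀ + θ - π)
        linarith
      rw [e1, zero_add]
      apply ENNReal.ofReal_le_ofReal
      have := le_max_right 0 (ω₀ - θ + π)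
      linarith
    · have m1 : min θ (ω₀ + θ - π) = θ := min_eq_left (by linarith)
      have m2 : max 0 (ω₀ - θ + π) = 0 := max_eq_left (by linarith)
      rw [m1, m2, ← ENNReal.ofReal_add (by linarith) (by linarith)]
      apply ENNReal.ofReal_le_ofReal
      linarith

/-- **Total measure of the allowed directions at a vertex** with corners of angles `α j`. -/
theorem sum_volume_allowed_le {m : ℕ} {α : Fin m → ℝ} (hα : ∀ j, 0 ≤ α j) {ω₀ : ℝ} :
    ∑ j, volume {β : ℝ | β ∈ Ioo 0 (α j) ∧ ps α j + β ∈ far (∑ i, α i) ω₀} ≤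
      ENNReal.ofReal ((∑ i, α i) - 2 * π) := by
  set θ := ∑ i, α i with hθ
  have h2 : ∀ j, volume {β : ℝ | β ∈ Ioo 0 (α j) ∧ ps α j + β ∈ far θ ω₀} =
      volume (Ioo (ps α j) (ps α j + α j) ∩ far θ ω₀) := by
    intro j
    rw [← measure_preimage_add volume (ps α j) (Ioo (ps α j) (ps α j + α j) ∩ far θ ω₀)]
    congr 1
    ext β
    simp only [mem_ofPred_eq, mem_preimage, mem_inter_iff, mem_Ioo]
    constructor
    · rintro ⟨⟨a, b⟩, c⟩; exact ⟨⟨by linarith, by linarith⟩, c⟩
    · rintro ⟨⟨a, b⟩, c⟩; exact ⟨⟨by linarith, by linarith⟩, c⟩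
  simp_rw [h2]
  have hfar : MeasurableSet (far θ ω₀) := by
    have hm : Measurable fun ω : ℝ => |ω - ω₀| := by fun_prop
    exact (measurableSet_le measurable_const hm).inter (measurableSet_le hm measurable_const)
  rw [← measure_biUnion_finset (s := Finset.univ)
    (f := fun j => Ioo (ps α j) (ps α j + α j) ∩ far θ ω₀)]
  · refine (measure_mono ?_).trans (volume_far_le (θ := θ) (ω₀ := ω₀))
    intro x hx
    simp only [Finset.mem_univ, iUnion_true, mem_iUnion, mem_inter_iff, mem_Ioo] at hx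
    obtain ⟨j, ⟨a, b⟩, c⟩ := hx
    exact ⟨c, (ps_nonneg hα j).trans a.le, b.le.trans (ps_add_le_total hα j)⟩
  · intro j _ k _ hjk
    rw [Function.onFun, Set.disjoint_left]
    rintro x ⟨⟨a, b⟩, _⟩ ⟨⟨c, d⟩, _⟩
    rcases lt_or_gt_of_ne hjk with h | h
    · have := ps_add_le hα h; linarith
    · have := ps_add_le hα h; linarith
  · intro j _
    exact measurableSet_Ioo.inter hfar

end Vale.Agent.P134.PS.H399
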