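import Vale.Agent.P134.PS.Kuhn
import Mathlib.MeasureTheory.Integral.IntervalIntegral.Basic

/-! # The Kuhn interpolation as an integral over the diagonal (Lovász form) -/

namespace Vale.Agent.P134.PS.H399

open MeasureTheory Set
open scoped ENNReal RealInnerProductSpace Real Interval

/-- componentwise floor of `x + θ (1,1,1)` -/
noncomputable def fl3 (x : E3) (θ : ℝ) : Lat := fun j => ⌊x j + θ⌋

/-- Lovász form of the Kuhn interpolation -/
noncomputable def lov (w : Lat → ℝ) (x : E3) : ℝ := ∫ θ in (0:ℝ)..1, w (fl3 x θ)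

lemma measurable_fl3 (x : E3) : Measurable (fl3 x) := by
  refine measurable_pi_lambda _ fun j => ?_
  exact Int.measurable_floor.comp (measurable_const.add measurable_id)

lemma fl3_finite (x : E3) : (fl3 x '' Icc 0 1).Finite := by
  refine ((Set.Finite.pi' (fun j : Fin 3 => Set.finite_Icc ⌊x j⌋ (⌊x j⌋ + 1)))).subset ?_
  rintro _ ⟨θ, hθ, rfl⟩ j
  simp only [fl3, mem_Icc]
  constructor
  · exact Int.floor_mono (by linarith [hθ.1])
  · have : ⌊x j + θ⌋ ≤ ⌊x j + 1⌋ := Int.floor_mono (by linarith [hθ.2])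
    rwa [Int.floor_add_one] at this

lemma intervalIntegrable_fl3 (w : Lat → ℝ) (x : E3) :
    IntervalIntegrable (fun θ => w (fl3 x θ)) volume 0 1 := by
  rw [intervalIntegrable_iff_integrableOn_Icc_of_le zero_le_one]
  have hm : Measurable fun θ => w (fl3 x θ) :=
    (measurable_of_countable w).comp (measurable_fl3 x)
  obtain ⟨M, hM⟩ : ∃ M : ℝ, ∀ θ ∈ Icc (0:ℝ) 1, ‖w (fl3 x θ)‖ ≤ M := by
    have hfin : ((fun q => ‖w q‖) '' (fl3 x '' Icc 0 1)).Finite := (fl3_finite x).image _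
    obtain ⟨M, hM⟩ := hfin.bddAbove
    refine ⟨M, fun θ hθ => hM ⟨fl3 x θ, ⟨θ, hθ, rfl⟩, rfl⟩⟩
  exact Measure.integrableOn_of_bounded (by simp) hm.aestronglyMeasurable
    ((ae_restrict_iff' measurableSet_Icc).2 (Filter.Eventually.of_forall hM))

lemma integral_step {f : ℝ → ℝ} {a b v : ℝ} (hab : a ≤ b) (h : ∀ θ ∈ Ioo a b, f θ = v) :
    ∫ θ in a..b, f θ = (b - a) * v := by
  have : ∫ θ in a..b, f θ = ∫ θ in a..b, v := by
    rw [intervalIntegral.integral_of_le hab, intervalIntegral.integral_of_le hab,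
      integral_Ioc_eq_integral_Ioo, integral_Ioc_eq_integral_Ioo]
    exact setIntegral_congr_fun measurableSet_Ioo h
  rw [this]; simp

/-- the floor of the sum of a number of `[z, z+1]` and `θ` -/
lemma floor_eq {x θ : ℝ} {z : ℤ} (h0 : 0 ≤ x - z) (h1 : x - z ≤ 1) (hθ : θ ∈ Ioo (0:ℝ) 1) :
    ⌊x + θ⌋ = z + if 1 - θ ≤ x - z then 1 else 0 := by
  split_ifs with h
  · rw [Int.floor_eq_iff]
    push_cast
    constructor <;> linarith [hθ.1, hθ.2]
  · push Not at h
    rw [Int.floor_eq_iff]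
    push_cast
    constructor <;> linarith [hθ.1, hθ.2]

lemma ord_surj3 : ∀ (s : Fin 6) (j : Fin 3), ∃ l, ord s l = j := by decide

lemma ii_floor (t : ℝ) : IntervalIntegrable (fun θ : ℝ => (⌊t + θ⌋ : ℝ)) volume 0 1 := by
  apply MonotoneOn.intervalIntegrable
  intro a _ b _ hab
  have : ⌊t + a⌋ ≤ ⌊t + b⌋ := Int.floor_mono (by linarith)
  show ((⌊t + a⌋ : ℤ) : ℝ) ≤ ((⌊t + b⌋ : ℤ) : ℝ)
  exact_mod_cast this

/-- the Lovász form agrees with the Kuhn interpolation -/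
theorem lov_eq (w : Lat → ℝ) {i : KI} {x : E3} (hx : x ∈ tet i) :
    lov w x = ∑ k, bar i k x * w (vert i k) := by
  obtain ⟨z, s⟩ := i
  have h0 : 0 ≤ 1 - (x (ord s 0) - z (ord s 0)) := hx 0
  have h1 : 0 ≤ (x (ord s 0) - z (ord s 0)) - (x (ord s 1) - z (ord s 1)) := hx 1
  have h2 : 0 ≤ (x (ord s 1) - z (ord s 1)) - (x (ord s 2) - z (ord s 2)) := hx 2
  have h3 : 0 ≤ x (ord s 2) - z (ord s 2) := hx 3
  set f0 := x (ord s 0) - z (ord s 0) with hf0
  set f1 := x (ord s 1) - z (ord s 1) with hf1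
  set f2 := x (ord s 2) - z (ord s 2) with hf2
  have hcoord : ∀ (θ : ℝ) (hθ : θ ∈ Ioo (0:ℝ) 1) (l : Fin 3), fl3 x θ (ord s l) =
      z (ord s l) + if 1 - θ ≤ x (ord s l) - z (ord s l) then 1 else 0 := by
    intro θ hθ l
    refine floor_eq ?_ ?_ hθ
    · match l with
      | 0 => linarith
      | 1 => linarith
      | 2 => linarith
    · match l with
      | 0 => linarith
      | 1 => linarith
      | 2 => linarith
  have hsurj : ∀ j : Fin 3, ∃ l, ord s l = j := ord_surj3 s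
  have hval : ∀ (θ : ℝ) (hθ : θ ∈ Ioo (0:ℝ) 1) (k : Fin 4),
      (∀ l : Fin 3, (1 - θ ≤ x (ord s l) - z (ord s l)) ↔ (l : ℕ) < k) →
      fl3 x θ = vert (z, s) k := by
    intro θ hθ k hk
    funext j
    obtain ⟨l, rfl⟩ := hsurj j
    rw [hcoord θ hθ l]
    simp only [vert, rk_ord]
    congr 1
    by_cases h : (l : ℕ) < k
    · rw [if_pos h, if_pos ((hk l).2 h)]
    · rw [if_neg h, if_neg (fun h' => h ((hk l).1 h'))]
  have hI := intervalIntegrable_fl3 w x
  have hI' : ∀ a b : ℝ, 0 ≤ a → a ≤ b → b ≤ 1 →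
      IntervalIntegrable (fun θ => w (fl3 x θ)) volume a b := by
    intro a b ha hab hb
    refine hI.mono_set ?_
    rw [uIcc_of_le hab, uIcc_of_le zero_le_one]
    exact Icc_subset_Icc ha hb
  have e0 : ∫ θ in (0:ℝ)..(1 - f0), w (fl3 x θ) = ((1 - f0) - 0) * w (vert (z, s) 0) := by
    refine integral_step (by linarith) fun θ hθ => ?_
    rw [hval θ ⟨hθ.1, by linarith [hθ.2]⟩ 0]
    intro l
    match l with
    | 0 => simp; linarith [hθ.2]
    | 1 => simp; linarith [hθ.2]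
    | 2 => simp; linarith [hθ.2]
  have e1 : ∫ θ in (1 - f0)..(1 - f1), w (fl3 x θ) = ((1 - f1) - (1 - f0)) * w (vert (z, s) 1) := by
    refine integral_step (by linarith) fun θ hθ => ?_
    rw [hval θ ⟨by linarith [hθ.1], by linarith [hθ.2]⟩ 1]
    intro l
    match l with
    | 0 => simp; linarith [hθ.1]
    | 1 => simp; linarith [hθ.2]
    | 2 => simp; linarith [hθ.2]
  have e2 : ∫ θ in (1 - f1)..(1 - f2), w (fl3 x θ) = ((1 - f2) - (1 - f1)) * w (vert (z, s) 2) := by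
    refine integral_step (by linarith) fun θ hθ => ?_
    rw [hval θ ⟨by linarith [hθ.1], by linarith [hθ.2]⟩ 2]
    intro l
    match l with
    | 0 => simp; linarith [hθ.1]
    | 1 => simp; linarith [hθ.1]
    | 2 => simp; linarith [hθ.2]
  have e3 : ∫ θ in (1 - f2)..1, w (fl3 x θ) = (1 - (1 - f2)) * w (vert (z, s) 3) := by
    refine integral_step (by linarith) fun θ hθ => ?_
    rw [hval θ ⟨by linarith [hθ.1], by linarith [hθ.2]⟩ 3]
    intro l
    match l with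
    | 0 => simp; linarith [hθ.1]
    | 1 => simp; linarith [hθ.1]
    | 2 => simp; linarith [hθ.1]
  rw [lov, ← intervalIntegral.integral_add_adjacent_intervals
      (hI' 0 (1 - f2) le_rfl (by linarith) (by linarith)) (hI' (1 - f2) 1 (by linarith) (by linarith) le_rfl),
    ← intervalIntegral.integral_add_adjacent_intervals
      (hI' 0 (1 - f1) le_rfl (by linarith) (by linarith)) (hI' (1 - f1) (1 - f2) (by linarith) (by linarith) (by linarith)),
    ← intervalIntegral.integral_add_adjacent_intervals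
      (hI' 0 (1 - f0) le_rfl (by linarith) (by linarith)) (hI' (1 - f0) (1 - f1) (by linarith) (by linarith) (by linarith)),
    e0, e1, e2, e3, Fin.sum_univ_four]
  simp only [bar]
  simp only [Matrix.cons_val_zero, Matrix.cons_val_one, Matrix.cons_val]
  ring

/-- the tetrahedra cover -/
theorem exists_tet (x : E3) : ∃ i, x ∈ tet i := by
  set z : Lat := fun j => ⌊x j⌋ with hz
  have hf : ∀ j, 0 ≤ x j - z j ∧ x j - z j ≤ 1 := fun j =>
    ⟨by simp only [hz]; linarith [Int.floor_le (x j)],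
      by simp only [hz]; linarith [Int.lt_floor_add_one (x j)]⟩
  have key : ∀ s : Fin 6, x (ord s 1) - z (ord s 1) ≤ x (ord s 0) - z (ord s 0) →
      x (ord s 2) - z (ord s 2) ≤ x (ord s 1) - z (ord s 1) → x ∈ tet (z, s) := by
    intro s h1 h2 k
    match k with
    | 0 => show 0 ≤ 1 - (x (ord s 0) - z (ord s 0)); linarith [(hf (ord s 0)).2]
    | 1 => show 0 ≤ (x (ord s 0) - z (ord s 0)) - (x (ord s 1) - z (ord s 1)); linarith
    | 2 => show 0 ≤ (x (ord s 1) - z (ord s 1)) - (x (ord s 2) - z (ord s 2)); linarith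
    | 3 => show 0 ≤ x (ord s 2) - z (ord s 2); linarith [(hf (ord s 2)).1]
  rcases le_total (x 0 - z 0) (x 1 - z 1) with h01 | h01
  · rcases le_total (x 1 - z 1) (x 2 - z 2) with h12 | h12
    · exact ⟨(z, 5), key 5 h12 h01⟩
    · rcases le_total (x 0 - z 0) (x 2 - z 2) with h02 | h02
      · exact ⟨(z, 3), key 3 h12 h02⟩
      · exact ⟨(z, 2), key 2 h01 h02⟩
  · rcases le_total (x 1 - z 1) (x 2 - z 2) with h12 | h12
    · rcases le_total (x 0 - z 0) (x 2 - z 2) with h02 | h02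
      · exact ⟨(z, 4), key 4 h02 h01⟩
      · exact ⟨(z, 1), key 1 h02 h12⟩
    · exact ⟨(z, 0), key 0 h01 h12⟩

lemma integral_floor (t : ℝ) : ∫ θ in (0:ℝ)..1, (⌊t + θ⌋ : ℝ) = t := by
  have h0 := Int.floor_le t
  have h1 := (Int.lt_floor_add_one t).le
  set z := ⌊t⌋ with hz
  set f := t - z with hf
  have hm : IntervalIntegrable (fun θ : ℝ => (⌊t + θ⌋ : ℝ)) volume 0 1 := ii_floor t
  have hm' : ∀ a b : ℝ, 0 ≤ a → a ≤ b → b ≤ 1 →
      IntervalIntegrable (fun θ : ℝ => (⌊t + θ⌋ : ℝ)) volume a b := by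
    intro a b ha hab hb
    refine hm.mono_set ?_
    rw [uIcc_of_le hab, uIcc_of_le zero_le_one]
    exact Icc_subset_Icc ha hb
  have e0 : ∫ θ in (0:ℝ)..(1 - f), (⌊t + θ⌋ : ℝ) = ((1 - f) - 0) * z := by
    refine integral_step (by linarith) fun θ hθ => ?_
    rw [floor_eq (z := z) (by linarith) (by linarith) ⟨hθ.1, by linarith [hθ.2]⟩,
      if_neg (by linarith [hθ.2])]
    simp
  have e1 : ∫ θ in (1 - f)..1, (⌊t + θ⌋ : ℝ) = (1 - (1 - f)) * (z + 1) := by
    refine integral_step (by linarith) fun θ hθ => ?_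
    rw [floor_eq (z := z) (by linarith) (by linarith) ⟨by linarith [hθ.1], hθ.2⟩,
      if_pos (by linarith [hθ.1])]
    push_cast; ring
  rw [← intervalIntegral.integral_add_adjacent_intervals
      (hm' 0 (1 - f) le_rfl (by linarith) (by linarith)) (hm' (1 - f) 1 (by linarith) (by linarith) le_rfl),
    e0, e1]
  rw [hf]; ring

lemma integral_abs_floor (t t' : ℝ) :
    ∫ θ in (0:ℝ)..1, |(⌊t + θ⌋ : ℝ) - (⌊t' + θ⌋ : ℝ)| = |t - t'| := by
  have hm : ∀ t : ℝ, IntervalIntegrable (fun θ : ℝ => (⌊t + θ⌋ : ℝ)) volume 0 1 := ii_floor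
  rcases le_total t t' with h | h
  · have e : (fun θ : ℝ => |(⌊t + θ⌋ : ℝ) - (⌊t' + θ⌋ : ℝ)|) =
        fun θ => (⌊t' + θ⌋ : ℝ) - (⌊t + θ⌋ : ℝ) := by
      funext θ
      have : ⌊t + θ⌋ ≤ ⌊t' + θ⌋ := Int.floor_mono (by linarith)
      have : (⌊t + θ⌋ : ℝ) ≤ ⌊t' + θ⌋ := by exact_mod_cast this
      rw [abs_of_nonpos (by linarith)]; ring
    rw [e, intervalIntegral.integral_sub (hm t') (hm t), integral_floor, integral_floor,
      abs_of_nonpos (by linarith)]
    ring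
  · have e : (fun θ : ℝ => |(⌊t + θ⌋ : ℝ) - (⌊t' + θ⌋ : ℝ)|) =
        fun θ => (⌊t + θ⌋ : ℝ) - (⌊t' + θ⌋ : ℝ) := by
      funext θ
      have : ⌊t' + θ⌋ ≤ ⌊t + θ⌋ := Int.floor_mono (by linarith)
      have : (⌊t' + θ⌋ : ℝ) ≤ ⌊t + θ⌋ := by exact_mod_cast this
      rw [abs_of_nonneg (by linarith)]
    rw [e, intervalIntegral.integral_sub (hm t) (hm t'), integral_floor, integral_floor,
      abs_of_nonneg (by linarith)]

lemma pt_fl3_apply (x : E3) (θ : ℝ) (j : Fin 3) : (pt (fl3 x θ)) j = (⌊x j + θ⌋ : ℝ) := rfl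

/-- `lov` of a linear function -/
lemma integral_inner (n : E3) (x : E3) :
    ∫ θ in (0:ℝ)..1, (⟪n, pt (fl3 x θ)⟫ : ℝ) = ⟪n, x⟫ := by
  have hm : ∀ t : ℝ, IntervalIntegrable (fun θ : ℝ => (⌊t + θ⌋ : ℝ)) volume 0 1 := ii_floor
  have e : ∀ y : E3, (⟪n, y⟫ : ℝ) = n 0 * y 0 + n 1 * y 1 + n 2 * y 2 := by
    intro y
    rw [PiLp.inner_apply, Fin.sum_univ_three]
    simp only [RCLike.inner_apply, conj_trivial]
    ring
  simp_rw [e, pt_fl3_apply]
  rw [intervalIntegral.integral_add, intervalIntegral.integral_add]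
  · simp only [intervalIntegral.integral_const_mul, integral_floor]
  · exact (hm _).const_mul _
  · exact (hm _).const_mul _
  · exact ((hm _).const_mul _).add ((hm _).const_mul _)
  · exact (hm _).const_mul _

lemma norm_le_sum (y : E3) : ‖y‖ ≤ |y 0| + |y 1| + |y 2| := by
  rw [EuclideanSpace.norm_eq, Fin.sum_univ_three]
  simp only [Real.norm_eq_abs, sq_abs]
  rw [Real.sqrt_le_left (by positivity)]
  nlinarith [sq_abs (y 0), sq_abs (y 1), sq_abs (y 2), abs_nonneg (y 0), abs_nonneg (y 1),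
    abs_nonneg (y 2), mul_nonneg (abs_nonneg (y 0)) (abs_nonneg (y 1)),
    mul_nonneg (abs_nonneg (y 0)) (abs_nonneg (y 2)),
    mul_nonneg (abs_nonneg (y 1)) (abs_nonneg (y 2))]

lemma sum_le_norm (y : E3) : |y 0| + |y 1| + |y 2| ≤ 2 * ‖y‖ := by
  have h : ‖y‖ ^ 2 = |y 0| ^ 2 + |y 1| ^ 2 + |y 2| ^ 2 := by
    rw [EuclideanSpace.norm_sq_eq, Fin.sum_univ_three]
    simp only [Real.norm_eq_abs]
  nlinarith [sq_nonneg (|y 0| - |y 1|), sq_nonneg (|y 0| - |y 2|), sq_nonneg (|y 1| - |y 2|),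
    norm_nonneg y, abs_nonneg (y 0), abs_nonneg (y 1), abs_nonneg (y 2)]

lemma dist_fl3 (x : E3) {θ : ℝ} (hθ : θ ∈ Icc (0:ℝ) 1) : dist (pt (fl3 x θ)) x ≤ 2 := by
  have hj : ∀ j, |(pt (fl3 x θ)) j - x j| ≤ 1 := by
    intro j
    rw [pt_fl3_apply, abs_le]
    have h1 := Int.floor_le (x j + θ)
    have h2 := Int.lt_floor_add_one (x j + θ)
    constructor <;> linarith [hθ.1, hθ.2]
  rw [dist_eq_norm, EuclideanSpace.norm_eq, Fin.sum_univ_three]
  rw [Real.sqrt_le_left (by norm_num)]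
  have h0 := hj 0
  have h1 := hj 1
  have h2 := hj 2
  simp only [PiLp.sub_apply, Real.norm_eq_abs, sq_abs]
  have k : ∀ a : ℝ, |a| ≤ 1 → a ^ 2 ≤ 1 := fun a ha => by
    rw [← sq_abs]; nlinarith [abs_nonneg a]
  have := k _ h0; have := k _ h1; have := k _ h2
  linarith

/-- **The interpolation is almost affine where the lattice function is.** -/
theorem lov_affine (w : Lat → ℝ) {n x y : E3} {e : ℝ} (he : 0 ≤ e)
    (h : ∀ θ ∈ Icc (0:ℝ) 1, |w (fl3 x θ) - w (fl3 y θ) - ⟪n, pt (fl3 x θ) - pt (fl3 y θ)⟫| ≤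
      e * ‖pt (fl3 x θ) - pt (fl3 y θ)‖) :
    |lov w x - lov w y - ⟪n, x - y⟫| ≤ 2 * e * ‖x - y‖ := by
  have hm : ∀ t : ℝ, IntervalIntegrable (fun θ : ℝ => (⌊t + θ⌋ : ℝ)) volume 0 1 := ii_floor
  have e1 : lov w x - lov w y - ⟪n, x - y⟫ = ∫ θ in (0:ℝ)..1,
      (w (fl3 x θ) - w (fl3 y θ) - (⟪n, pt (fl3 x θ)⟫ - ⟪n, pt (fl3 y θ)⟫)) := by
    rw [intervalIntegral.integral_sub, intervalIntegral.integral_sub,
      intervalIntegral.integral_sub, integral_inner, integral_inner, inner_sub_right]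
    · rfl
    · exact intervalIntegrable_fl3 (fun q => ⟪n, pt q⟫) x
    · exact intervalIntegrable_fl3 (fun q => ⟪n, pt q⟫) y
    · exact intervalIntegrable_fl3 w x
    · exact intervalIntegrable_fl3 w y
    · exact (intervalIntegrable_fl3 w x).sub (intervalIntegrable_fl3 w y)
    · exact (intervalIntegrable_fl3 (fun q => ⟪n, pt q⟫) x).sub
        (intervalIntegrable_fl3 (fun q => ⟪n, pt q⟫) y)
  have hab : ∀ j, IntervalIntegrable (fun θ : ℝ => |(⌊x j + θ⌋ : ℝ) - (⌊y j + θ⌋ : ℝ)|)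
      volume 0 1 := fun j => ((hm _).sub (hm _)).abs
  rw [e1]
  have h2 : ‖∫ θ in (0:ℝ)..1,
      (w (fl3 x θ) - w (fl3 y θ) - (⟪n, pt (fl3 x θ)⟫ - ⟪n, pt (fl3 y θ)⟫))‖ ≤
      ∫ θ in (0:ℝ)..1, e * (|(⌊x 0 + θ⌋ : ℝ) - (⌊y 0 + θ⌋ : ℝ)| +
        |(⌊x 1 + θ⌋ : ℝ) - (⌊y 1 + θ⌋ : ℝ)| + |(⌊x 2 + θ⌋ : ℝ) - (⌊y 2 + θ⌋ : ℝ)|) := by
    refine intervalIntegral.norm_integral_le_of_norm_le zero_le_one ?_ ?_
    · refine Filter.Eventually.of_forall fun θ hθ => ?_
      have h3 := h θ ⟨hθ.1.le, hθ.2⟩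
      rw [inner_sub_right] at h3
      rw [Real.norm_eq_abs]
      refine h3.trans ?_
      gcongr
      exact norm_le_sum _
    · exact (((hab 0).add (hab 1)).add (hab 2)).const_mul e
  rw [Real.norm_eq_abs] at h2
  refine h2.trans ?_
  rw [intervalIntegral.integral_const_mul, intervalIntegral.integral_add ((hab 0).add (hab 1))
    (hab 2), intervalIntegral.integral_add (hab 0) (hab 1)]
  rw [integral_abs_floor, integral_abs_floor, integral_abs_floor]
  have := sum_le_norm (x - y)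
  simp only [PiLp.sub_apply] at this
  nlinarith

/-- the interpolation is close to the function -/
theorem lov_close {φ : E3 → ℝ} (hφ : ∀ x y, |φ x - φ y| ≤ dist x y) (x : E3) :
    |lov (fun q => φ (pt q)) x - φ x| ≤ 2 := by
  have e1 : lov (fun q => φ (pt q)) x - φ x =
      ∫ θ in (0:ℝ)..1, (φ (pt (fl3 x θ)) - φ x) := by
    rw [intervalIntegral.integral_sub (intervalIntegrable_fl3 (fun q => φ (pt q)) x)
      intervalIntegrable_const]
    simp [lov]
  rw [e1, ← Real.norm_eq_abs]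
  have := intervalIntegral.norm_integral_le_of_norm_le_const (a := 0) (b := 1) (C := 2)
    (f := fun θ => φ (pt (fl3 x θ)) - φ x) ?_
  · simpa using this
  · intro θ hθ
    rw [uIoc_of_le zero_le_one] at hθ
    rw [Real.norm_eq_abs]
    exact (hφ _ _).trans (dist_fl3 x ⟨hθ.1.le, hθ.2⟩)

end Vale.Agent.P134.PS.H399
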